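import Mathlib

namespace Vale.Agent.Lib.P344

/-- A gate of a linear circuit. The values computed so far are kept in a list and a gate refers
to them by position: `add u v` computes the sum of the values at positions `u` and `v`,
`sub u v` their difference, and `smul c u` multiplies the value at position `u` by the fixed
scalar `c`. Every gate costs one. -/
inductive Gate where
  | add (u v : ℕ) : Gate
  | sub (u v : ℕ) : Gate
  | smul (c : ℂ) (u : ℕ) : Gate

/-- The value computed by a gate from the list `vals` of previously computed values
(a position outside the list reads as the constant `0`). -/
def Gate.eval (vals : List ℂ) : Gate → ℂ
  | Gate.add u v => vals.getD u 0 + vals.getD v 0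
  | Gate.sub u v => vals.getD u 0 - vals.getD v 0
  | Gate.smul c u => c * vals.getD u 0

/-- Run a circuit (a list of gates) on the list `vals` of initial values: each gate in turn
appends its value to the end of the list, so that later gates may reuse it. -/
def run : List ℂ → List Gate → List ℂ
  | vals, [] => vals
  | vals, g :: gs => run (vals ++ [g.eval vals]) gs

end Vale.Agent.Lib.P344
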