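import Mathlib
import Vale.Agent.Lib.P344.Defs

namespace Vale.Agent.Lib.P344

section generic

variable {V W : Type*} [AddCommGroup V] [Module ℂ V] [AddCommGroup W] [Module ℂ W]

/-- generic gate semantics over a complex vector space -/
def gev (vals : List V) : Gate → V
  | Gate.add u v => vals.getD u 0 + vals.getD v 0
  | Gate.sub u v => vals.getD u 0 - vals.getD v 0
  | Gate.smul c u => c • vals.getD u 0

/-- generic run -/
def grun : List V → List Gate → List V
  | vals, [] => vals
  | vals, g :: gs => grun (vals ++ [gev vals g]) gs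

lemma getD_map_lin (φ : V →ₗ[ℂ] W) (vals : List V) (u : ℕ) :
    (vals.map φ).getD u 0 = φ (vals.getD u 0) := by
  rw [← map_zero φ, List.getD_map]

lemma gev_map (φ : V →ₗ[ℂ] W) (vals : List V) (g : Gate) :
    gev (vals.map φ) g = φ (gev vals g) := by
  cases g with
  | add u v =>
    show (vals.map φ).getD u 0 + (vals.map φ).getD v 0 = φ (vals.getD u 0 + vals.getD v 0)
    rw [getD_map_lin, getD_map_lin, map_add]
  | sub u v =>
    show (vals.map φ).getD u 0 - (vals.map φ).getD v 0 = φ (vals.getD u 0 - vals.getD v 0)
    rw [getD_map_lin, getD_map_lin, map_sub]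
  | smul c u =>
    show c • (vals.map φ).getD u 0 = φ (c • vals.getD u 0)
    rw [getD_map_lin, map_smul]

lemma grun_map (φ : V →ₗ[ℂ] W) (gs : List Gate) : ∀ vals : List V,
    grun (vals.map φ) gs = (grun vals gs).map φ := by
  induction gs with
  | nil => intro vals; rfl
  | cons g gs ih =>
    intro vals
    simp only [grun]
    rw [← ih]
    simp [gev_map]

lemma eval_eq_gev (vals : List ℂ) (g : Gate) : g.eval vals = gev vals g := by
  cases g <;> rfl

lemma run_eq_grun (gs : List Gate) : ∀ vals : List ℂ, run vals gs = grun vals gs := by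
  induction gs with
  | nil => intro vals; rfl
  | cons g gs ih =>
    intro vals
    simp only [run, grun]
    rw [ih, eval_eq_gev]

omit [Module ℂ V] in
lemma getD_mem_or_zero (vals : List V) (u : ℕ) : vals.getD u 0 ∈ vals ∨ vals.getD u 0 = 0 := by
  by_cases h : u < vals.length
  · left
    rw [List.getD_eq_getElem _ _ h]
    exact List.getElem_mem h
  · right
    exact List.getD_eq_default _ _ (by omega)

end generic

end Vale.Agent.Lib.P344
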