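import Mathlib
import Vale.Agent.Lib.P344.Proof

namespace Vale.Agent.Lib.P344

open Finset

variable {n : ℕ}

/-- `v` is supported inside one fibre of the labelling `c`. -/
def HasLabel (c : Fin n → Fin n) (v : Fin n → ℂ) : Prop :=
  ∃ l, ∀ i, v i ≠ 0 → c i = l

/-- first invariant: supports are contained in the classes of a partition with many classes -/
def Inv1 (vals : List (Fin n → ℂ)) (a : ℕ) : Prop :=
  (∃ c : Fin n → Fin n, (∀ v ∈ vals, HasLabel c v) ∧ n ≤ (Finset.univ.image c).card + a)
    ∨ n ≤ a + 2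

/-- second invariant: few rows of the target matrix are proportional to a computed value -/
def Inv2 (F : Fin n → Fin n → ℂ) (vals : List (Fin n → ℂ)) (b : ℕ) : Prop :=
  ∃ S : Finset (Fin n), S.card ≤ b ∧
    ∀ j, (∃ v ∈ vals, ∃ μ : ℂ, μ ≠ 0 ∧ v = μ • F j) → j ∈ S

lemma hasLabel_getD (hn : 0 < n) (c : Fin n → Fin n) (vals : List (Fin n → ℂ))
    (h : ∀ v ∈ vals, HasLabel c v) (u : ℕ) : HasLabel c (vals.getD u 0) := by
  rcases getD_mem_or_zero vals u with h1 | h1
  · exact h _ h1
  · rw [h1]
    exact ⟨⟨0, hn⟩, fun i hi => absurd rfl hi⟩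

lemma step_add_core (F : Fin n → Fin n → ℂ) (hF0 : ∀ j i, F j i ≠ 0)
    (hFp : ∀ (j j' : Fin n) (μ : ℂ), μ ≠ 0 → F j = μ • F j' → j = j')
    (vals : List (Fin n → ℂ)) (a b : ℕ) (x y w : Fin n → ℂ)
    (hxl : ∀ c : Fin n → Fin n, (∀ v ∈ vals, HasLabel c v) → HasLabel c x)
    (hyl : ∀ c : Fin n → Fin n, (∀ v ∈ vals, HasLabel c v) → HasLabel c y)
    (hw : ∀ i, w i ≠ 0 → x i ≠ 0 ∨ y i ≠ 0)
    (h1 : Inv1 vals a) (h2 : Inv2 F vals b) :
    ∃ a' b', Inv1 (vals ++ [w]) a' ∧ Inv2 F (vals ++ [w]) b' ∧ a' + b' ≤ a + b + 1 := by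
  by_cases hfull : ∀ i, w i ≠ 0
  · refine ⟨a, b + 1, ?_, ?_, by omega⟩
    · rcases h1 with ⟨c, hc, hcard⟩ | h1
      · right
        obtain ⟨lx, hlx⟩ := hxl c hc
        obtain ⟨ly, hly⟩ := hyl c hc
        have hsub : Finset.univ.image c ⊆ {lx, ly} := by
          intro l hl
          obtain ⟨i, _, rfl⟩ := Finset.mem_image.mp hl
          rcases hw i (hfull i) with h | h
          · simp [hlx i h]
          · simp [hly i h]
        have hc2 : (Finset.univ.image c).card ≤ 2 :=
          (Finset.card_le_card hsub).trans Finset.card_le_two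
        omega
      · right
        exact h1
    · obtain ⟨S, hS, hmem⟩ := h2
      by_cases hex : ∃ j0 : Fin n, ∃ μ0 : ℂ, μ0 ≠ 0 ∧ w = μ0 • F j0
      · obtain ⟨j0, μ0, hμ0, hw0⟩ := hex
        refine ⟨insert j0 S, (Finset.card_insert_le _ _).trans (by omega), ?_⟩
        rintro j ⟨v, hv, μ, hμ, hvj⟩
        rw [List.mem_append, List.mem_singleton] at hv
        rcases hv with hv | rfl
        · exact Finset.mem_insert_of_mem (hmem j ⟨v, hv, μ, hμ, hvj⟩)
        · have hj : j = j0 := by
            apply hFp j j0 (μ⁻¹ * μ0) (mul_ne_zero (inv_ne_zero hμ) hμ0)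
            rw [mul_smul, ← hw0, hvj, smul_smul, inv_mul_cancel₀ hμ, one_smul]
          rw [hj]
          exact Finset.mem_insert_self _ _
      · refine ⟨S, by omega, ?_⟩
        rintro j ⟨v, hv, μ, hμ, hvj⟩
        rw [List.mem_append, List.mem_singleton] at hv
        rcases hv with hv | rfl
        · exact hmem j ⟨v, hv, μ, hμ, hvj⟩
        · exact absurd ⟨j, μ, hμ, hvj⟩ hex
  · refine ⟨a + 1, b, ?_, ?_, by omega⟩
    · rcases h1 with ⟨c, hc, hcard⟩ | h1
      · left
        obtain ⟨lx, hlx⟩ := hxl c hc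
        obtain ⟨ly, hly⟩ := hyl c hc
        refine ⟨fun i => if c i = ly then lx else c i, ?_, ?_⟩
        · intro v hv
          rw [List.mem_append, List.mem_singleton] at hv
          rcases hv with hv | rfl
          · obtain ⟨l, hl⟩ := hc v hv
            refine ⟨if l = ly then lx else l, fun i hi => ?_⟩
            simp only [hl i hi]
          · refine ⟨lx, fun i hi => ?_⟩
            rcases hw i hi with h | h
            · simp only [hlx i h]
              split_ifs <;> rfl
            · simp only [hly i h, if_true]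
        · have hsub : Finset.univ.image c ⊆
              insert ly (Finset.univ.image (fun i => if c i = ly then lx else c i)) := by
            intro l hl
            obtain ⟨i, _, rfl⟩ := Finset.mem_image.mp hl
            by_cases hci : c i = ly
            · rw [hci]
              exact Finset.mem_insert_self _ _
            · apply Finset.mem_insert_of_mem
              apply Finset.mem_image.mpr
              exact ⟨i, Finset.mem_univ _, by simp [hci]⟩
          have h3 := (Finset.card_le_card hsub).trans (Finset.card_insert_le _ _)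
          omega
      · right
        omega
    · obtain ⟨S, hS, hmem⟩ := h2
      refine ⟨S, hS, ?_⟩
      rintro j ⟨v, hv, μ, hμ, hvj⟩
      rw [List.mem_append, List.mem_singleton] at hv
      rcases hv with hv | rfl
      · exact hmem j ⟨v, hv, μ, hμ, hvj⟩
      · exfalso
        apply hfull
        intro i
        rw [hvj]
        simp only [Pi.smul_apply, smul_eq_mul]
        exact mul_ne_zero hμ (hF0 j i)

lemma step_smul_core (hn : 0 < n) (F : Fin n → Fin n → ℂ) (hF0 : ∀ j i, F j i ≠ 0)
    (vals : List (Fin n → ℂ)) (a b : ℕ) (lam : ℂ) (u : ℕ)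
    (h1 : Inv1 vals a) (h2 : Inv2 F vals b) :
    Inv1 (vals ++ [lam • vals.getD u 0]) a ∧ Inv2 F (vals ++ [lam • vals.getD u 0]) b := by
  constructor
  · rcases h1 with ⟨c, hc, hcard⟩ | h1
    · left
      refine ⟨c, ?_, hcard⟩
      intro v hv
      rw [List.mem_append, List.mem_singleton] at hv
      rcases hv with hv | rfl
      · exact hc v hv
      · obtain ⟨l, hl⟩ := hasLabel_getD hn c vals hc u
        refine ⟨l, fun i hi => hl i ?_⟩
        intro hx
        apply hi
        show lam • (vals.getD u 0 i) = 0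
        rw [hx, smul_zero]
    · right
      exact h1
  · obtain ⟨S, hS, hmem⟩ := h2
    refine ⟨S, hS, ?_⟩
    rintro j ⟨v, hv, μ, hμ, hvj⟩
    rw [List.mem_append, List.mem_singleton] at hv
    rcases hv with hv | rfl
    · exact hmem j ⟨v, hv, μ, hμ, hvj⟩
    · have hlam : lam ≠ 0 := by
        intro h0
        rw [h0, zero_smul] at hvj
        have := congrFun hvj ⟨0, hn⟩
        simp only [Pi.zero_apply, Pi.smul_apply, smul_eq_mul] at this
        exact mul_ne_zero hμ (hF0 j ⟨0, hn⟩) this.symm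
      have hx : vals.getD u 0 = (lam⁻¹ * μ) • F j := by
        rw [mul_smul, ← hvj, smul_smul, inv_mul_cancel₀ hlam, one_smul]
      have hmem' : vals.getD u 0 ∈ vals := by
        rcases getD_mem_or_zero vals u with h | h
        · exact h
        · exfalso
          rw [h] at hx
          have := congrFun hx ⟨0, hn⟩
          simp only [Pi.zero_apply, Pi.smul_apply, smul_eq_mul] at this
          exact mul_ne_zero (mul_ne_zero (inv_ne_zero hlam) hμ) (hF0 j ⟨0, hn⟩) this.symm
      exact hmem j ⟨_, hmem', lam⁻¹ * μ, mul_ne_zero (inv_ne_zero hlam) hμ, hx⟩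

lemma step (hn : 0 < n) (F : Fin n → Fin n → ℂ) (hF0 : ∀ j i, F j i ≠ 0)
    (hFp : ∀ (j j' : Fin n) (μ : ℂ), μ ≠ 0 → F j = μ • F j' → j = j')
    (vals : List (Fin n → ℂ)) (a b : ℕ) (g : Gate)
    (h1 : Inv1 vals a) (h2 : Inv2 F vals b) :
    ∃ a' b', Inv1 (vals ++ [gev vals g]) a' ∧ Inv2 F (vals ++ [gev vals g]) b' ∧
      a' + b' ≤ a + b + 1 := by
  cases g with
  | add u v =>
    refine step_add_core F hF0 hFp vals a b (vals.getD u 0) (vals.getD v 0) _
      (fun c hc => hasLabel_getD hn c vals hc u) (fun c hc => hasLabel_getD hn c vals hc v)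
      ?_ h1 h2
    intro i hi
    by_contra hcon
    rw [not_or, not_not, not_not] at hcon
    apply hi
    show vals.getD u 0 i + vals.getD v 0 i = 0
    rw [hcon.1, hcon.2, add_zero]
  | sub u v =>
    refine step_add_core F hF0 hFp vals a b (vals.getD u 0) (vals.getD v 0) _
      (fun c hc => hasLabel_getD hn c vals hc u) (fun c hc => hasLabel_getD hn c vals hc v)
      ?_ h1 h2
    intro i hi
    by_contra hcon
    rw [not_or, not_not, not_not] at hcon
    apply hi
    show vals.getD u 0 i - vals.getD v 0 i = 0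
    rw [hcon.1, hcon.2, sub_zero]
  | smul lam u =>
    obtain ⟨h1', h2'⟩ := step_smul_core hn F hF0 vals a b lam u h1 h2
    exact ⟨a, b, h1', h2', by omega⟩

lemma run_inv (hn : 0 < n) (F : Fin n → Fin n → ℂ) (hF0 : ∀ j i, F j i ≠ 0)
    (hFp : ∀ (j j' : Fin n) (μ : ℂ), μ ≠ 0 → F j = μ • F j' → j = j')
    (gs : List Gate) : ∀ (vals : List (Fin n → ℂ)) (a b : ℕ),
      Inv1 vals a → Inv2 F vals b →
      ∃ a' b', Inv1 (grun vals gs) a' ∧ Inv2 F (grun vals gs) b' ∧ a' + b' ≤ a + b + gs.length := by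
  induction gs with
  | nil =>
    intro vals a b h1 h2
    exact ⟨a, b, h1, h2, by simp⟩
  | cons g gs ih =>
    intro vals a b h1 h2
    obtain ⟨a1, b1, h1', h2', hab⟩ := step hn F hF0 hFp vals a b g h1 h2
    obtain ⟨a2, b2, h1'', h2'', hab'⟩ := ih _ a1 b1 h1' h2'
    refine ⟨a2, b2, h1'', h2'', ?_⟩
    simp only [List.length_cons]
    omega

/-- the initial values: the coordinate vectors followed by the constant zero -/
def initV (n : ℕ) : List (Fin n → ℂ) :=
  List.ofFn (fun k : Fin n => (Pi.single k 1 : Fin n → ℂ)) ++ [0]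

lemma mem_initV (v : Fin n → ℂ) (hv : v ∈ initV n) :
    (∃ k : Fin n, v = Pi.single k 1) ∨ v = 0 := by
  unfold initV at hv
  rw [List.mem_append, List.mem_singleton, List.mem_ofFn] at hv
  rcases hv with ⟨k, hk⟩ | hv
  · exact Or.inl ⟨k, hk.symm⟩
  · exact Or.inr hv

lemma inv1_init (hn : 0 < n) : Inv1 (initV n) 0 := by
  left
  refine ⟨id, ?_, ?_⟩
  · intro v hv
    rcases mem_initV v hv with ⟨k, rfl⟩ | rfl
    · refine ⟨k, fun i hi => ?_⟩
      by_contra hne
      apply hi
      simp [show ¬ (i = k) from hne]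
    · exact ⟨⟨0, hn⟩, fun i hi => absurd rfl hi⟩
  · simp

lemma inv2_init (hn : 2 ≤ n) (F : Fin n → Fin n → ℂ) (hF0 : ∀ j i, F j i ≠ 0) :
    Inv2 F (initV n) 0 := by
  refine ⟨∅, by simp, ?_⟩
  rintro j ⟨v, hv, μ, hμ, hvj⟩
  exfalso
  rcases mem_initV v hv with ⟨k, rfl⟩ | rfl
  · obtain ⟨i, hi⟩ : ∃ i : Fin n, i ≠ k := by
      by_cases hk : (k : ℕ) = 0
      · exact ⟨⟨1, by omega⟩, fun h => by
          have := congrArg Fin.val h
          simp at this
          omega⟩
      · exact ⟨⟨0, by omega⟩, fun h => by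
          have := congrArg Fin.val h
          simp at this
          omega⟩
    have := congrFun hvj i
    simp only [Pi.single_apply, hi, if_false, Pi.smul_apply, smul_eq_mul] at this
    exact mul_ne_zero hμ (hF0 j i) this.symm
  · have := congrFun hvj ⟨0, by omega⟩
    simp only [Pi.zero_apply, Pi.smul_apply, smul_eq_mul] at this
    exact mul_ne_zero hμ (hF0 j ⟨0, by omega⟩) this.symm

/-- Any circuit that computes all rows of a matrix without zero entries and with pairwise
non-proportional rows has at least `2 n - 2` gates (vector-valued form). -/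
theorem lower_bound_vec (hn : 2 ≤ n) (F : Fin n → Fin n → ℂ) (hF0 : ∀ j i, F j i ≠ 0)
    (hFp : ∀ (j j' : Fin n) (μ : ℂ), μ ≠ 0 → F j = μ • F j' → j = j')
    (gates : List Gate) (hout : ∀ j, F j ∈ grun (initV n) gates) :
    2 * n ≤ gates.length + 2 := by
  obtain ⟨a, b, h1, h2, hab⟩ := run_inv (by omega) F hF0 hFp gates (initV n) 0 0
    (inv1_init (by omega)) (inv2_init hn F hF0)
  have hb : n ≤ b := by
    obtain ⟨S, hS, hmem⟩ := h2
    have hS' : S = Finset.univ := by
      apply Finset.eq_univ_of_forall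
      intro j
      exact hmem j ⟨F j, hout j, 1, one_ne_zero, (one_smul _ _).symm⟩
    rw [hS'] at hS
    simpa using hS
  have ha : n ≤ a + 2 := by
    rcases h1 with ⟨c, hc, hcard⟩ | h1
    · obtain ⟨l, hl⟩ := hc (F ⟨0, by omega⟩) (hout _)
      have hsub : Finset.univ.image c ⊆ {l} := by
        intro l' hl'
        obtain ⟨i, _, rfl⟩ := Finset.mem_image.mp hl'
        simp [hl i (hF0 _ i)]
      have := Finset.card_le_card hsub
      simp only [Finset.card_singleton] at this
      omega
    · exact h1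
  omega

end Vale.Agent.Lib.P344
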