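import Mathlib
import Vale.Agent.Lib.P344.LowerBound

namespace Vale.Agent.Lib.P344

open Finset

variable {n : ℕ}

/-- evaluation of a linear form (given by its coefficient vector) at the input `x` -/
def phi (x : Fin n → ℂ) : (Fin n → ℂ) →ₗ[ℂ] ℂ where
  toFun w := ∑ k, w k * x k
  map_add' := by
    intro a b
    simp [add_mul, Finset.sum_add_distrib]
  map_smul' := by
    intro c a
    simp [Finset.mul_sum, mul_assoc]

lemma phi_apply (x w : Fin n → ℂ) : phi x w = ∑ k, w k * x k := rfl

lemma phi_single (x : Fin n → ℂ) (k : Fin n) : phi x (Pi.single k 1) = x k := by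
  rw [phi_apply, Finset.sum_eq_single k]
  · simp
  · intro b _ hb
    simp [hb]
  · simp

lemma phi_single' (w : Fin n → ℂ) (k : Fin n) : phi (Pi.single k 1) w = w k := by
  rw [phi_apply, Finset.sum_eq_single k]
  · simp
  · intro b _ hb
    simp [hb]
  · simp

lemma initV_map (x : Fin n → ℂ) : (initV n).map (phi x) = List.ofFn x ++ [0] := by
  unfold initV
  rw [List.map_append, List.map_ofFn]
  congr 1
  · congr 1
    funext k
    exact phi_single x k
  · simp

/-- the vector computed at position `p` by the circuit has coefficient vector given by the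
generic run on the coordinate vectors -/
lemma run_getD (gates : List Gate) (x : Fin n → ℂ) (p : ℕ) :
    (run (List.ofFn x ++ [0]) gates).getD p 0 = phi x ((grun (initV n) gates).getD p 0) := by
  rw [run_eq_grun, ← initV_map, grun_map, getD_map_lin]

/-- Any circuit whose designated outputs compute `x ↦ F x` for a matrix `F` without zero
entries and with pairwise non-proportional rows has at least `2 n - 2` gates. -/
theorem lower_bound_scalar (hn : 2 ≤ n) (F : Fin n → Fin n → ℂ) (hF0 : ∀ j i, F j i ≠ 0)
    (hFp : ∀ (j j' : Fin n) (μ : ℂ), μ ≠ 0 → F j = μ • F j' → j = j')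
    (gates : List Gate) (out : Fin n → ℕ)
    (h : ∀ (x : Fin n → ℂ) (j : Fin n),
      (run (List.ofFn x ++ [0]) gates).getD (out j) 0 = ∑ k, F j k * x k) :
    2 * n - 2 ≤ gates.length := by
  have key : ∀ j, (grun (initV n) gates).getD (out j) 0 = F j := by
    intro j
    funext k
    have h1 := h (Pi.single k 1) j
    rw [run_getD, phi_single'] at h1
    rw [h1, ← phi_apply, phi_single']
  have hout : ∀ j, F j ∈ grun (initV n) gates := by
    intro j
    rcases getD_mem_or_zero (grun (initV n) gates) (out j) with h1 | h1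
    · rw [key j] at h1
      exact h1
    · exfalso
      rw [key j] at h1
      exact hF0 j ⟨0, by omega⟩ (congrFun h1 _)
  have := lower_bound_vec hn F hF0 hFp gates hout
  omega

/-- the Fourier matrix has no zero entry -/
lemma dft_ne_zero (n : ℕ) (j k : Fin n) :
    Complex.exp (2 * Real.pi * Complex.I / n) ^ ((j : ℕ) * (k : ℕ)) ≠ 0 :=
  pow_ne_zero _ (Complex.exp_ne_zero _)

/-- distinct rows of the Fourier matrix are not proportional -/
lemma dft_not_prop (n : ℕ) (hn : 2 ≤ n) (j j' : Fin n) (μ : ℂ) (_hμ : μ ≠ 0)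
    (h : (fun k : Fin n => Complex.exp (2 * Real.pi * Complex.I / n) ^ ((j : ℕ) * (k : ℕ)))
      = μ • (fun k : Fin n => Complex.exp (2 * Real.pi * Complex.I / n) ^ ((j' : ℕ) * (k : ℕ)))) :
    j = j' := by
  have h0 := congrFun h ⟨0, by omega⟩
  have h1 := congrFun h ⟨1, by omega⟩
  simp only [Pi.smul_apply, smul_eq_mul, Nat.mul_zero, pow_zero, mul_one] at h0 h1
  rw [← h0, one_mul] at h1
  have hprim := Complex.isPrimitiveRoot_exp n (by omega)
  exact Fin.ext (hprim.pow_inj j.2 j'.2 h1)

end Vale.Agent.Lib.P344
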