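import Mathlib
import Vale.Agent.Lib.P344.Defs

namespace Vale.Agent.Lib.P344

/-- weight of a gate when only additions and subtractions are counted: one for `add` and `sub`,
zero for `smul` -/
def wAS : Gate → ℕ
  | Gate.add _ _ => 1
  | Gate.sub _ _ => 1
  | Gate.smul _ _ => 0

/-- weight of a gate when only scalar multiplications are counted: one for `smul`, zero for
`add` and `sub` -/
def wS : Gate → ℕ
  | Gate.add _ _ => 0
  | Gate.sub _ _ => 0
  | Gate.smul _ _ => 1

/-- the number of addition and subtraction gates of a circuit -/
def cntAS (gs : List Gate) : ℕ := (gs.map wAS).sum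

/-- the number of scalar multiplication gates of a circuit -/
def cntS (gs : List Gate) : ℕ := (gs.map wS).sum

end Vale.Agent.Lib.P344
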