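import Mathlib
import Vale.Agent.Lib.P344.Bridge

namespace Vale.Agent.Lib.P344

open Finset

variable {n : ℕ}

/-- third invariant: all values lie in the rational span of few vectors -/
def Inv3 (vals : List (Fin n → ℂ)) (m : ℕ) : Prop :=
  ∃ G : Finset (Fin n → ℂ), G.card ≤ n + m ∧
    ∀ v ∈ vals, v ∈ Submodule.span ℚ (G : Set (Fin n → ℂ))

lemma span_getD (G : Finset (Fin n → ℂ)) (vals : List (Fin n → ℂ))
    (h : ∀ v ∈ vals, v ∈ Submodule.span ℚ (G : Set (Fin n → ℂ))) (u : ℕ) :
    vals.getD u 0 ∈ Submodule.span ℚ (G : Set (Fin n → ℂ)) := by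
  rcases getD_mem_or_zero vals u with h1 | h1
  · exact h _ h1
  · rw [h1]
    exact Submodule.zero_mem _

lemma inv3_add (vals : List (Fin n → ℂ)) (m : ℕ) (u v : ℕ) (h : Inv3 vals m) :
    Inv3 (vals ++ [vals.getD u 0 + vals.getD v 0]) m := by
  obtain ⟨G, hG, hmem⟩ := h
  refine ⟨G, hG, ?_⟩
  intro w hw
  rw [List.mem_append, List.mem_singleton] at hw
  rcases hw with hw | rfl
  · exact hmem w hw
  · exact Submodule.add_mem _ (span_getD G vals hmem u) (span_getD G vals hmem v)

lemma inv3_sub (vals : List (Fin n → ℂ)) (m : ℕ) (u v : ℕ) (h : Inv3 vals m) :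
    Inv3 (vals ++ [vals.getD u 0 - vals.getD v 0]) m := by
  obtain ⟨G, hG, hmem⟩ := h
  refine ⟨G, hG, ?_⟩
  intro w hw
  rw [List.mem_append, List.mem_singleton] at hw
  rcases hw with hw | rfl
  · exact hmem w hw
  · exact Submodule.sub_mem _ (span_getD G vals hmem u) (span_getD G vals hmem v)

lemma inv3_smul (vals : List (Fin n → ℂ)) (m : ℕ) (lam : ℂ) (u : ℕ) (h : Inv3 vals m) :
    Inv3 (vals ++ [lam • vals.getD u 0]) (m + 1) := by
  classical
  obtain ⟨G, hG, hmem⟩ := h
  refine ⟨insert (lam • vals.getD u 0) G, (Finset.card_insert_le _ _).trans (by omega), ?_⟩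
  intro w hw
  rw [List.mem_append, List.mem_singleton] at hw
  rcases hw with hw | rfl
  · refine Submodule.span_mono ?_ (hmem w hw)
    rw [Finset.coe_insert]
    exact Set.subset_insert _ _
  · apply Submodule.subset_span
    rw [Finset.coe_insert]
    exact Set.mem_insert _ _

lemma step3 (hn : 0 < n) (F : Fin n → Fin n → ℂ) (hF0 : ∀ j i, F j i ≠ 0)
    (hFp : ∀ (j j' : Fin n) (μ : ℂ), μ ≠ 0 → F j = μ • F j' → j = j')
    (vals : List (Fin n → ℂ)) (a b m : ℕ) (g : Gate)
    (h1 : Inv1 vals a) (h2 : Inv2 F vals b) (h3 : Inv3 vals m) :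
    ∃ a' b' m', Inv1 (vals ++ [gev vals g]) a' ∧ Inv2 F (vals ++ [gev vals g]) b' ∧
      Inv3 (vals ++ [gev vals g]) m' ∧ a' + b' + m' ≤ a + b + m + 1 := by
  cases g with
  | add u v =>
    obtain ⟨a', b', h1', h2', hab⟩ := step hn F hF0 hFp vals a b (Gate.add u v) h1 h2
    exact ⟨a', b', m, h1', h2', inv3_add vals m u v h3, by omega⟩
  | sub u v =>
    obtain ⟨a', b', h1', h2', hab⟩ := step hn F hF0 hFp vals a b (Gate.sub u v) h1 h2
    exact ⟨a', b', m, h1', h2', inv3_sub vals m u v h3, by omega⟩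
  | smul lam u =>
    obtain ⟨h1', h2'⟩ := step_smul_core hn F hF0 vals a b lam u h1 h2
    exact ⟨a, b, m + 1, h1', h2', inv3_smul vals m lam u h3, by omega⟩

lemma run_inv3 (hn : 0 < n) (F : Fin n → Fin n → ℂ) (hF0 : ∀ j i, F j i ≠ 0)
    (hFp : ∀ (j j' : Fin n) (μ : ℂ), μ ≠ 0 → F j = μ • F j' → j = j')
    (gs : List Gate) : ∀ (vals : List (Fin n → ℂ)) (a b m : ℕ),
      Inv1 vals a → Inv2 F vals b → Inv3 vals m →
      ∃ a' b' m', Inv1 (grun vals gs) a' ∧ Inv2 F (grun vals gs) b' ∧ Inv3 (grun vals gs) m' ∧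
        a' + b' + m' ≤ a + b + m + gs.length := by
  induction gs with
  | nil =>
    intro vals a b m h1 h2 h3
    exact ⟨a, b, m, h1, h2, h3, by simp⟩
  | cons g gs ih =>
    intro vals a b m h1 h2 h3
    obtain ⟨a1, b1, m1, h1', h2', h3', hab⟩ := step3 hn F hF0 hFp vals a b m g h1 h2 h3
    obtain ⟨a2, b2, m2, h1'', h2'', h3'', hab'⟩ := ih _ a1 b1 m1 h1' h2' h3'
    refine ⟨a2, b2, m2, h1'', h2'', h3'', ?_⟩
    simp only [List.length_cons]
    omega

lemma mem_grun (gs : List Gate) : ∀ (vals : List (Fin n → ℂ)) (v : Fin n → ℂ),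
    v ∈ vals → v ∈ grun vals gs := by
  induction gs with
  | nil => intro vals v hv; exact hv
  | cons g gs ih =>
    intro vals v hv
    exact ih _ v (List.mem_append_left _ hv)

lemma single_mem_initV (k : Fin n) : (Pi.single k 1 : Fin n → ℂ) ∈ initV n := by
  unfold initV
  rw [List.mem_append, List.mem_ofFn]
  exact Or.inl ⟨k, rfl⟩

lemma inv3_init : Inv3 (initV n) 0 := by
  classical
  refine ⟨Finset.univ.image (fun k : Fin n => (Pi.single k 1 : Fin n → ℂ)), ?_, ?_⟩
  · refine (Finset.card_image_le).trans ?_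
    simp
  · intro v hv
    rcases mem_initV v hv with ⟨k, rfl⟩ | rfl
    · apply Submodule.subset_span
      rw [Finset.coe_image]
      exact ⟨k, by simp, rfl⟩
    · exact Submodule.zero_mem _

/-- Vector-valued lower bound with the rank term: if the coordinate vectors together with the
rows `F (g i)`, `i : κ`, are linearly independent over `ℚ`, then a circuit computing all rows
of `F` has at least `2 n - 2 + |κ|` gates. -/
theorem lower_bound_vec3 (hn : 2 ≤ n) (F : Fin n → Fin n → ℂ) (hF0 : ∀ j i, F j i ≠ 0)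
    (hFp : ∀ (j j' : Fin n) (μ : ℂ), μ ≠ 0 → F j = μ • F j' → j = j')
    {κ : Type} [Fintype κ] (g : κ → Fin n)
    (hind : LinearIndependent ℚ
      (Sum.elim (fun k : Fin n => (Pi.single k 1 : Fin n → ℂ)) (fun i : κ => F (g i))))
    (gates : List Gate) (hout : ∀ j, F j ∈ grun (initV n) gates) :
    2 * n + Fintype.card κ ≤ gates.length + 2 := by
  classical
  obtain ⟨a, b, m, h1, h2, h3, hab⟩ := run_inv3 (by omega) F hF0 hFp gates (initV n) 0 0 0
    (inv1_init (by omega)) (inv2_init hn F hF0) inv3_init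
  have hb : n ≤ b := by
    obtain ⟨S, hS, hmem⟩ := h2
    have hS' : S = Finset.univ := by
      apply Finset.eq_univ_of_forall
      intro j
      exact hmem j ⟨F j, hout j, 1, one_ne_zero, (one_smul _ _).symm⟩
    rw [hS'] at hS
    simpa using hS
  have ha : n ≤ a + 2 := by
    rcases h1 with ⟨c, hc, hcard⟩ | h1
    · obtain ⟨l, hl⟩ := hc (F ⟨0, by omega⟩) (hout _)
      have hsub : Finset.univ.image c ⊆ {l} := by
        intro l' hl'
        obtain ⟨i, _, rfl⟩ := Finset.mem_image.mp hl'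
        simp [hl i (hF0 _ i)]
      have := Finset.card_le_card hsub
      simp only [Finset.card_singleton] at this
      omega
    · exact h1
  have hm : Fintype.card κ ≤ m := by
    obtain ⟨G, hG, hmem⟩ := h3
    have hrange : Set.range (Sum.elim (fun k : Fin n => (Pi.single k 1 : Fin n → ℂ))
        (fun i : κ => F (g i))) ≤ Submodule.span ℚ (G : Set (Fin n → ℂ)) := by
      rintro _ ⟨x, rfl⟩
      rcases x with k | i
      · exact hmem _ (mem_grun gates _ _ (single_mem_initV k))
      · exact hmem _ (hout (g i))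
    have hcard := linearIndependent_le_span_aux' _ hind (G : Set (Fin n → ℂ)) hrange
    simp only [Finset.coe_sort_coe, Fintype.card_coe, Fintype.card_sum, Fintype.card_fin] at hcard
    omega
  omega

/-- scalar form of `lower_bound_vec3` -/
theorem lower_bound_scalar3 (hn : 2 ≤ n) (F : Fin n → Fin n → ℂ) (hF0 : ∀ j i, F j i ≠ 0)
    (hFp : ∀ (j j' : Fin n) (μ : ℂ), μ ≠ 0 → F j = μ • F j' → j = j')
    {κ : Type} [Fintype κ] (g : κ → Fin n)
    (hind : LinearIndependent ℚ
      (Sum.elim (fun k : Fin n => (Pi.single k 1 : Fin n → ℂ)) (fun i : κ => F (g i))))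
    (gates : List Gate) (out : Fin n → ℕ)
    (h : ∀ (x : Fin n → ℂ) (j : Fin n),
      (run (List.ofFn x ++ [0]) gates).getD (out j) 0 = ∑ k, F j k * x k) :
    2 * n + Fintype.card κ ≤ gates.length + 2 := by
  have key : ∀ j, (grun (initV n) gates).getD (out j) 0 = F j := by
    intro j
    funext k
    have h1 := h (Pi.single k 1) j
    rw [run_getD, phi_single'] at h1
    rw [h1, ← phi_apply, phi_single']
  have hout : ∀ j, F j ∈ grun (initV n) gates := by
    intro j
    rcases getD_mem_or_zero (grun (initV n) gates) (out j) with h1 | h1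
    · rw [key j] at h1
      exact h1
    · exfalso
      rw [key j] at h1
      exact hF0 j ⟨0, by omega⟩ (congrFun h1 _)
  exact lower_bound_vec3 hn F hF0 hFp g hind gates hout

end Vale.Agent.Lib.P344
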