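import Mathlib
import Vale.Agent.Lib.P344.Rank

namespace Vale.Agent.Lib.P344

open Polynomial Finset

lemma exists_coprime_lift (n n' x : ℕ) (hn : n ≠ 0) (h : n' ∣ n) (hx : x.Coprime n') :
    ∃ a : ℕ, a.Coprime n ∧ a ≡ x [MOD n'] := by
  have : NeZero n := ⟨hn⟩
  obtain ⟨u, hu⟩ := ZMod.unitsMap_surjective h (ZMod.unitOfCoprime x hx)
  refine ⟨(u : ZMod n).val, ZMod.val_coe_unit_coprime u, ?_⟩
  have h1 : ((ZMod.unitsMap h u : (ZMod n')ˣ) : ZMod n') = (x : ZMod n') := by
    rw [hu]
    simp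
  rw [ZMod.unitsMap_val] at h1
  rw [← ZMod.natCast_eq_natCast_iff, ZMod.natCast_val]
  exact h1

lemma exists_unit_mul (n j : ℕ) (hj0 : 0 < j) (hjn : j < n) :
    ∃ a : ℕ, a.Coprime n ∧ (a * Nat.gcd j n) % n = j := by
  have hn : n ≠ 0 := by omega
  have hd : 0 < Nat.gcd j n := Nat.gcd_pos_of_pos_left n hj0
  obtain ⟨a, ha, hax⟩ := exists_coprime_lift n (n / Nat.gcd j n) (j / Nat.gcd j n) hn
    (Nat.div_dvd_of_dvd (Nat.gcd_dvd_right j n)) (Nat.coprime_div_gcd_div_gcd hd)
  refine ⟨a, ha, ?_⟩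
  have h2 := Nat.ModEq.mul_right' (Nat.gcd j n) hax
  rw [Nat.div_mul_cancel (Nat.gcd_dvd_right j n), Nat.div_mul_cancel (Nat.gcd_dvd_left j n)] at h2
  rw [h2]
  exact Nat.mod_eq_of_lt hjn

/-- the polynomial with coefficients `q 0, …, q (n-1)` placed at the exponents `e j` -/
noncomputable def qpoly (n : ℕ) (q : ℕ → ℚ) (e : ℕ → ℕ) : ℚ[X] :=
  ∑ j ∈ range n, C (q j) * X ^ (e j)

lemma aeval_qpoly (n : ℕ) (q : ℕ → ℚ) (e : ℕ → ℕ) (z : ℂ) :
    aeval z (qpoly n q e) = ∑ j ∈ range n, (q j : ℂ) * z ^ (e j) := by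
  simp [qpoly, map_sum]

lemma natDegree_qpoly (n : ℕ) (q : ℕ → ℚ) (e : ℕ → ℕ) (N : ℕ) (he : ∀ j < n, e j ≤ N) :
    (qpoly n q e).natDegree ≤ N := by
  apply natDegree_sum_le_of_forall_le
  intro j hj
  exact (natDegree_C_mul_X_pow_le _ _).trans (he j (Finset.mem_range.mp hj))

lemma coeff_qpoly (n : ℕ) (q : ℕ → ℚ) (e : ℕ → ℕ) (m : ℕ) :
    (qpoly n q e).coeff m = ∑ j ∈ range n, if m = e j then q j else 0 := by
  simp [qpoly]

/-- a rational polynomial of degree `< n` vanishing at all `n`-th roots of unity is zero -/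
lemma poly_eq_zero (n : ℕ) (ζ : ℂ) (hζ : IsPrimitiveRoot ζ n) (p : ℚ[X])
    (hdeg : p.natDegree < n) (h : ∀ k < n, aeval (ζ ^ k) p = 0) : p = 0 := by
  have h1 : p.map (algebraMap ℚ ℂ) = 0 := by
    apply eq_zero_of_natDegree_lt_card_of_eval_eq_zero (p.map (algebraMap ℚ ℂ))
      (f := fun i : Fin n => ζ ^ (i : ℕ))
    · intro i j hij
      exact Fin.ext (hζ.pow_inj i.2 j.2 hij)
    · intro i
      rw [eval_map_algebraMap]
      exact h i i.2
    · rw [Fintype.card_fin]
      exact lt_of_le_of_lt natDegree_map_le hdeg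
  exact (Polynomial.map_eq_zero (algebraMap ℚ ℂ)).mp h1



/-- Galois invariance: if `Q(ζ^k)` is rational then `Q((ζ^a)^k) = Q(ζ^k)` for `a` coprime
to `n`. -/
lemma aeval_pow_coprime (n : ℕ) (hn : 0 < n) (ζ : ℂ) (hζ : IsPrimitiveRoot ζ n) (Q : ℚ[X])
    (k : ℕ) (s : ℚ) (hs : aeval (ζ ^ k) Q = (s : ℂ)) (a : ℕ) (ha : a.Coprime n) :
    aeval ((ζ ^ a) ^ k) Q = (s : ℂ) := by
  have hP : aeval ζ (Q.comp (X ^ k) - C s) = 0 := by
    rw [map_sub, aeval_comp, aeval_C]
    simp only [map_pow, aeval_X]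
    rw [hs]
    simp
  have hdvd := minpoly.dvd ℚ ζ hP
  have hmin : minpoly ℚ ζ = minpoly ℚ (ζ ^ a) := by
    rw [← cyclotomic_eq_minpoly_rat hζ hn, ← cyclotomic_eq_minpoly_rat (hζ.pow_of_coprime a ha) hn]
  obtain ⟨R, hR⟩ := hdvd
  have h2 : aeval (ζ ^ a) (Q.comp (X ^ k) - C s) = 0 := by
    rw [hR, map_mul, hmin, minpoly.aeval, zero_mul]
  rw [map_sub, aeval_comp, aeval_C] at h2
  simp only [map_pow, aeval_X] at h2
  have h3 := sub_eq_zero.mp h2
  rw [h3]
  simp

/-- The key independence statement: if `q` vanishes at `0` and at the proper divisors of `n`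
and all values `∑_{j<n} q_j ζ^{jk}` (`k < n`) are rational, then `q` vanishes below `n`. -/
theorem key_indep (n : ℕ) (hn : 0 < n) (ζ : ℂ) (hζ : IsPrimitiveRoot ζ n) (q s : ℕ → ℚ)
    (hq0 : q 0 = 0) (hq : ∀ d, d < n → d ∣ n → q d = 0)
    (hs : ∀ k < n, ∑ j ∈ range n, (q j : ℂ) * ζ ^ (j * k) = (s k : ℂ)) :
    ∀ j < n, q j = 0 := by
  have hQ : ∀ k < n, aeval (ζ ^ k) (qpoly n q id) = (s k : ℂ) := by
    intro k hk
    rw [aeval_qpoly, ← hs k hk]
    apply Finset.sum_congr rfl
    intro j _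
    simp only [id]
    rw [← pow_mul, mul_comm k j]
  -- invariance of the coefficients under multiplication by units
  have hB : ∀ a : ℕ, a.Coprime n → ∀ j0 < n, q ((a * j0) % n) = q j0 := by
    intro a ha j0 hj0
    have hzero : qpoly n q (fun j => (a * j) % n) - qpoly n q id = 0 := by
      apply poly_eq_zero n ζ hζ
      · have h1 : (qpoly n q (fun j => (a * j) % n)).natDegree ≤ n - 1 :=
          natDegree_qpoly n q _ (n - 1) (fun j _ => by
            have := Nat.mod_lt (a * j) hn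
            omega)
        have h2 : (qpoly n q id).natDegree ≤ n - 1 :=
          natDegree_qpoly n q _ (n - 1) (fun j hj => by simp only [id]; omega)
        have h3 := natDegree_sub_le (qpoly n q (fun j => (a * j) % n)) (qpoly n q id)
        have h4 := max_le h1 h2
        omega
      · intro k hk
        rw [map_sub, hQ k hk, aeval_qpoly]
        have h5 := aeval_pow_coprime n hn ζ hζ (qpoly n q id) k (s k) (hQ k hk) a ha
        rw [aeval_qpoly] at h5
        rw [← h5, sub_eq_zero]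
        apply Finset.sum_congr rfl
        intro j _
        simp only [id]
        congr 1
        have h6 : (ζ ^ k) ^ n = 1 := by
          rw [← pow_mul, mul_comm, pow_mul, hζ.pow_eq_one, one_pow]
        rw [← pow_eq_pow_mod (a * j) h6, ← pow_mul, ← pow_mul, ← pow_mul]
        congr 1
        ring
    have hcoef := congrArg (fun p : ℚ[X] => p.coeff ((a * j0) % n)) (sub_eq_zero.mp hzero)
    simp only [coeff_qpoly, id] at hcoef
    have hl : ∑ j ∈ range n, (if (a * j0) % n = (a * j) % n then q j else 0) = q j0 := by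
      rw [Finset.sum_eq_single j0]
      · simp
      · intro j hj hne
        have hjn := Finset.mem_range.mp hj
        rw [if_neg]
        intro heq
        apply hne
        have h7 : a * j ≡ a * j0 [MOD n] := heq.symm
        have h8 := Nat.ModEq.cancel_left_of_coprime (Nat.coprime_comm.mp ha) h7
        unfold Nat.ModEq at h8
        rw [Nat.mod_eq_of_lt hjn, Nat.mod_eq_of_lt hj0] at h8
        exact h8
      · intro h
        exact absurd (Finset.mem_range.mpr hj0) h
    have hr : ∑ j ∈ range n, (if (a * j0) % n = j then q j else 0) = q ((a * j0) % n) := by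
      rw [Finset.sum_ite_eq]
      simp [Nat.mod_lt _ hn]
    rw [hl, hr] at hcoef
    exact hcoef.symm
  intro j hj
  by_cases hj0 : j = 0
  · rw [hj0]
    exact hq0
  · obtain ⟨a, ha, haj⟩ := exists_unit_mul n j (by omega) hj
    have hd : Nat.gcd j n < n := lt_of_le_of_lt (Nat.gcd_le_left n (by omega)) hj
    have := hB a ha (Nat.gcd j n) hd
    rw [haj] at this
    rw [this]
    exact hq _ hd (Nat.gcd_dvd_right j n)



/-- rows of the Fourier matrix -/
noncomputable def dftRow (n : ℕ) (j : Fin n) : Fin n → ℂ :=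
  fun k => Complex.exp (2 * Real.pi * Complex.I / n) ^ ((j : ℕ) * (k : ℕ))

/-- the row indices that are neither `0` nor divisors of `n` -/
abbrev Jtype (n : ℕ) : Type := {j : Fin n // 0 < (j : ℕ) ∧ ¬ ((j : ℕ) ∣ n)}

theorem dft_indep (n : ℕ) (hn : 0 < n) :
    LinearIndependent ℚ (Sum.elim (fun k : Fin n => (Pi.single k 1 : Fin n → ℂ))
      (fun i : Jtype n => dftRow n i.1)) := by
  classical
  rw [Fintype.linearIndependent_iff]
  intro c hc
  rw [Fintype.sum_sum_type] at hc
  simp only [Sum.elim_inl, Sum.elim_inr] at hc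
  have hζ := Complex.isPrimitiveRoot_exp n (by omega)
  set ζ : ℂ := Complex.exp (2 * Real.pi * Complex.I / n) with hζdef
  let c' : Fin n → ℚ := fun j =>
    if h : 0 < (j : ℕ) ∧ ¬ ((j : ℕ) ∣ n) then c (Sum.inr ⟨j, h⟩) else 0
  let q : ℕ → ℚ := fun j => if h : j < n then c' ⟨j, h⟩ else 0
  let s : ℕ → ℚ := fun k => if h : k < n then - c (Sum.inl ⟨k, h⟩) else 0
  have hsum : ∀ k : Fin n,
      (c (Sum.inl k) : ℂ) + ∑ j ∈ range n, (q j : ℂ) * ζ ^ (j * (k : ℕ)) = 0 := by
    intro k
    have hk := congrFun hc k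
    simp only [Pi.add_apply, Finset.sum_apply, Pi.smul_apply, Pi.zero_apply] at hk
    have e1 : ∑ x : Fin n, c (Sum.inl x) • (Pi.single x (1 : ℂ) : Fin n → ℂ) k
        = (c (Sum.inl k) : ℂ) := by
      rw [Finset.sum_eq_single k]
      · simp [Rat.smul_def]
      · intro b _ hb
        simp [Ne.symm hb]
      · simp
    have e2 : ∑ x : Jtype n, c (Sum.inr x) • dftRow n x.1 k
        = ∑ j ∈ range n, (q j : ℂ) * ζ ^ (j * (k : ℕ)) := by
      have e3 : ∑ x : Jtype n, c (Sum.inr x) • dftRow n x.1 k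
          = ∑ x : Jtype n, (c' x.1 : ℂ) * ζ ^ ((x.1 : ℕ) * (k : ℕ)) := by
        apply Finset.sum_congr rfl
        intro x _
        have : c' x.1 = c (Sum.inr x) := by
          simp only [c']
          rw [dif_pos x.2]
        rw [this, Rat.smul_def]
        rfl
      rw [e3]
      rw [← Finset.sum_subtype (Finset.univ.filter
        (fun j : Fin n => 0 < (j : ℕ) ∧ ¬ ((j : ℕ) ∣ n))) (by simp)
        (fun j : Fin n => (c' j : ℂ) * ζ ^ ((j : ℕ) * (k : ℕ)))]
      rw [Finset.sum_filter]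
      rw [← Fin.sum_univ_eq_sum_range (fun j => (q j : ℂ) * ζ ^ (j * (k : ℕ))) n]
      apply Finset.sum_congr rfl
      intro j _
      have hqj : q (j : ℕ) = c' j := by
        simp only [q]
        rw [dif_pos j.2]
      rw [hqj]
      split_ifs with hP
      · rfl
      · have : c' j = 0 := by
          simp only [c']
          rw [dif_neg hP]
        rw [this]
        simp
    rw [e1, e2] at hk
    exact hk
  have hq : ∀ j < n, q j = 0 := by
    apply key_indep n hn ζ hζ q s
    · simp only [q, c']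
      rw [dif_pos hn, dif_neg]
      simp
    · intro d hd hdn
      simp only [q, c']
      rw [dif_pos hd, dif_neg]
      simp [hdn]
    · intro k hk
      have := hsum ⟨k, hk⟩
      simp only [s]
      rw [dif_pos hk]
      push_cast
      linear_combination this
  intro x
  rcases x with k | i
  · have h1 := hsum k
    have h2 : ∑ j ∈ range n, (q j : ℂ) * ζ ^ (j * (k : ℕ)) = 0 := by
      apply Finset.sum_eq_zero
      intro j hj
      rw [hq j (Finset.mem_range.mp hj)]
      simp
    rw [h2, add_zero] at h1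
    exact_mod_cast h1
  · have h1 := hq (i.1 : ℕ) i.1.2
    simp only [q, c'] at h1
    rw [dif_pos i.1.2, dif_pos i.2] at h1
    exact h1

lemma card_Jtype (n : ℕ) (hn : 0 < n) :
    n ≤ Fintype.card (Jtype n) + (Nat.divisors n).card := by
  classical
  rw [Fintype.card_subtype]
  have h1 := Finset.card_filter_add_card_filter_not (s := (Finset.univ : Finset (Fin n)))
    (fun j : Fin n => 0 < (j : ℕ) ∧ ¬ ((j : ℕ) ∣ n))
  rw [Finset.card_univ, Fintype.card_fin] at h1
  have h2 : (Finset.univ.filter (fun j : Fin n => ¬ (0 < (j : ℕ) ∧ ¬ ((j : ℕ) ∣ n)))).card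
      ≤ (Nat.divisors n).card := by
    apply Finset.card_le_card_of_injOn (fun j : Fin n => if (j : ℕ) = 0 then n else (j : ℕ))
    · intro j hj
      have hj' := (Finset.mem_filter.mp hj).2
      simp only [Finset.mem_coe, Nat.mem_divisors]
      refine ⟨?_, by omega⟩
      by_cases h0 : (j : ℕ) = 0
      · simp [h0]
      · simp only [h0, if_false]
        by_contra hnd
        exact hj' ⟨by omega, hnd⟩
    · intro j _ j' _ hjj'
      simp only at hjj'
      apply Fin.ext
      have hj := j.2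
      have hj' := j'.2
      split_ifs at hjj' <;> omega
  omega

end Vale.Agent.Lib.P344
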