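import Mathlib
import Vale.Agent.Lib.P344.Indep
import Vale.Agent.Lib.P344.Count

namespace Vale.Agent.Lib.P344

open Finset

variable {n : ℕ}

/-- the pair of values `x, y` has a nonzero two-by-two minor with both columns in `M` -/
def Gen (M : Finset (Fin n)) (x y : Fin n → ℂ) : Prop :=
  ∃ a ∈ M, ∃ b ∈ M, x a * y b ≠ x b * y a

/-- generic on `M` but not on `M` with `i` removed -/
def Dgen (M : Finset (Fin n)) (i : Fin n) (x y : Fin n → ℂ) : Prop :=
  Gen M x y ∧ ¬ Gen (M.erase i) x y

open Classical in
/-- weight of a gate: one if it is an addition or subtraction whose arguments satisfy `P` -/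
noncomputable def gw (P : (Fin n → ℂ) → (Fin n → ℂ) → Prop) (vals : List (Fin n → ℂ)) :
    Gate → ℕ
  | Gate.add u v => if P (vals.getD u 0) (vals.getD v 0) then 1 else 0
  | Gate.sub u v => if P (vals.getD u 0) (vals.getD v 0) then 1 else 0
  | Gate.smul _ _ => 0

/-- number of additions and subtractions in the run whose arguments satisfy `P` -/
noncomputable def cnt (P : (Fin n → ℂ) → (Fin n → ℂ) → Prop) :
    List (Fin n → ℂ) → List Gate → ℕ
  | _, [] => 0
  | vals, g :: gs => gw P vals g + cnt P (vals ++ [gev vals g]) gs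

lemma cntAS_cons (g : Gate) (gs : List Gate) : cntAS (g :: gs) = wAS g + cntAS gs := by
  simp [cntAS]

lemma cntS_cons (g : Gate) (gs : List Gate) : cntS (g :: gs) = wS g + cntS gs := by
  simp [cntS]

lemma cntAS_snoc (gs : List Gate) (g : Gate) : cntAS (gs ++ [g]) = cntAS gs + wAS g := by
  simp [cntAS, List.map_append, List.sum_append]

lemma cntAS_add_cntS (gs : List Gate) : cntAS gs + cntS gs = gs.length := by
  induction gs with
  | nil => rfl
  | cons g gs ih =>
    rw [cntAS_cons, cntS_cons, List.length_cons]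
    cases g <;> simp only [wAS, wS] <;> omega

open Classical in
/-- a uniform view of a gate: either a scalar multiple of an earlier value, or a combination
`x + s y` (`s ≠ 0`) of two earlier values -/
lemma gate_view (vals : List (Fin n → ℂ)) (g : Gate) :
    (∃ (c : ℂ) (x : Fin n → ℂ), (x ∈ vals ∨ x = 0) ∧ gev vals g = c • x ∧
      (∀ P, gw P vals g = 0) ∧ wAS g = 0 ∧ wS g = 1) ∨
    (∃ (x y : Fin n → ℂ) (s : ℂ), s ≠ 0 ∧ (x ∈ vals ∨ x = 0) ∧ (y ∈ vals ∨ y = 0) ∧
      (∀ a, gev vals g a = x a + s * y a) ∧
      (∀ P, gw P vals g = if P x y then 1 else 0) ∧ wAS g = 1 ∧ wS g = 0) := by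
  cases g with
  | add u v =>
    right
    refine ⟨vals.getD u 0, vals.getD v 0, 1, one_ne_zero, getD_mem_or_zero vals u,
      getD_mem_or_zero vals v, ?_, fun P => rfl, rfl, rfl⟩
    intro a
    show vals.getD u 0 a + vals.getD v 0 a = vals.getD u 0 a + 1 * vals.getD v 0 a
    rw [one_mul]
  | sub u v =>
    right
    refine ⟨vals.getD u 0, vals.getD v 0, -1, neg_ne_zero.mpr one_ne_zero,
      getD_mem_or_zero vals u, getD_mem_or_zero vals v, ?_, fun P => rfl, rfl, rfl⟩
    intro a
    show vals.getD u 0 a - vals.getD v 0 a = vals.getD u 0 a + (-1) * vals.getD v 0 a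
    ring
  | smul c u =>
    left
    exact ⟨c, vals.getD u 0, getD_mem_or_zero vals u, rfl, fun P => rfl, rfl, rfl⟩

lemma cnt_le_cntAS (P : (Fin n → ℂ) → (Fin n → ℂ) → Prop) :
    ∀ (gs : List Gate) (vals : List (Fin n → ℂ)), cnt P vals gs ≤ cntAS gs := by
  classical
  intro gs
  induction gs with
  | nil => intro vals; exact Nat.le_refl _
  | cons g gs ih =>
    intro vals
    rw [cntAS_cons]
    show gw P vals g + cnt P (vals ++ [gev vals g]) gs ≤ wAS g + cntAS gs
    have h1 := ih (vals ++ [gev vals g])
    have h2 : gw P vals g ≤ wAS g := by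
      rcases gate_view vals g with ⟨c, x, -, -, hgw, hAS, -⟩ | ⟨x, y, s, -, -, -, -, hgw, hAS, -⟩
      · rw [hgw P, hAS]
      · rw [hgw P, hAS]
        split_ifs <;> omega
    omega

lemma cnt_add_le (P Q R : (Fin n → ℂ) → (Fin n → ℂ) → Prop)
    (hPR : ∀ x y, P x y → R x y) (hQR : ∀ x y, Q x y → R x y)
    (hPQ : ∀ x y, P x y → Q x y → False) :
    ∀ (gs : List Gate) (vals : List (Fin n → ℂ)),
      cnt P vals gs + cnt Q vals gs ≤ cnt R vals gs := by
  classical
  intro gs
  induction gs with
  | nil => intro vals; exact Nat.le_refl _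
  | cons g gs ih =>
    intro vals
    show gw P vals g + cnt P (vals ++ [gev vals g]) gs
      + (gw Q vals g + cnt Q (vals ++ [gev vals g]) gs)
      ≤ gw R vals g + cnt R (vals ++ [gev vals g]) gs
    have h1 := ih (vals ++ [gev vals g])
    have h2 : gw P vals g + gw Q vals g ≤ gw R vals g := by
      rcases gate_view vals g with ⟨c, x, -, -, hgw, -, -⟩ | ⟨x, y, s, -, -, -, -, hgw, -, -⟩
      · rw [hgw P, hgw Q, hgw R]
      · rw [hgw P, hgw Q, hgw R]
        by_cases hP : P x y
        · have hR := hPR x y hP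
          have hQ : ¬ Q x y := fun hQ => hPQ x y hP hQ
          rw [if_pos hP, if_neg hQ, if_pos hR]
        · by_cases hQ : Q x y
          · rw [if_neg hP, if_pos hQ, if_pos (hQR x y hQ)]
          · rw [if_neg hP, if_neg hQ]
            exact Nat.zero_le _
    omega

/-- at most one coordinate in `M` is nonzero -/
def PureOn (M : Finset (Fin n)) (v : Fin n → ℂ) : Prop :=
  ∀ a ∈ M, ∀ b ∈ M, v a ≠ 0 → v b ≠ 0 → a = b

/-- the three shapes of values allowed in the second phase -/
def TypeJ (M : Finset (Fin n)) (i j : Fin n) (ci cj : ℂ) (v : Fin n → ℂ) : Prop :=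
  (∀ a ∈ M, a ≠ i → v a = 0) ∨ (∀ a ∈ M, a ≠ j → v a = 0) ∨ v i * cj = v j * ci

lemma dgen_of_left (M : Finset (Fin n)) (i : Fin n) (hi : i ∈ M) (x y : Fin n → ℂ)
    (hx : ∀ a ∈ M, a ≠ i → x a = 0) :
    x i = 0 ∨ (∀ b ∈ M, b ≠ i → y b = 0) ∨ Dgen M i x y := by
  by_cases hxi : x i = 0
  · exact Or.inl hxi
  · by_cases hy : ∀ b ∈ M, b ≠ i → y b = 0
    · exact Or.inr (Or.inl hy)
    · right
      right
      obtain ⟨b, hb⟩ := not_forall.mp hy
      obtain ⟨hbM, hb'⟩ := Classical.not_imp.mp hb
      obtain ⟨hbi, hyb⟩ := Classical.not_imp.mp hb'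
      refine ⟨⟨i, hi, b, hbM, ?_⟩, ?_⟩
      · rw [hx b hbM hbi, zero_mul]
        exact mul_ne_zero hxi hyb
      · rintro ⟨a, ha, c, hc, hne⟩
        apply hne
        rw [hx a (Finset.mem_of_mem_erase ha) (Finset.ne_of_mem_erase ha),
          hx c (Finset.mem_of_mem_erase hc) (Finset.ne_of_mem_erase hc), zero_mul, zero_mul]

lemma dgen_of_right (M : Finset (Fin n)) (i : Fin n) (hi : i ∈ M) (x y : Fin n → ℂ)
    (hy : ∀ a ∈ M, a ≠ i → y a = 0) :
    y i = 0 ∨ (∀ b ∈ M, b ≠ i → x b = 0) ∨ Dgen M i x y := by
  by_cases hyi : y i = 0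
  · exact Or.inl hyi
  · by_cases hx : ∀ b ∈ M, b ≠ i → x b = 0
    · exact Or.inr (Or.inl hx)
    · right
      right
      obtain ⟨b, hb⟩ := not_forall.mp hx
      obtain ⟨hbM, hb'⟩ := Classical.not_imp.mp hb
      obtain ⟨hbi, hxb⟩ := Classical.not_imp.mp hb'
      refine ⟨⟨b, hbM, i, hi, ?_⟩, ?_⟩
      · rw [hy b hbM hbi, mul_zero]
        exact mul_ne_zero hxb hyi
      · rintro ⟨a, ha, c, hc, hne⟩
        apply hne
        rw [hy a (Finset.mem_of_mem_erase ha) (Finset.ne_of_mem_erase ha),
          hy c (Finset.mem_of_mem_erase hc) (Finset.ne_of_mem_erase hc), mul_zero, mul_zero]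

lemma typeJ_of_zero_left (M : Finset (Fin n)) (i j : Fin n) (hi : i ∈ M) (hj : j ∈ M)
    (ci cj : ℂ) (x y w : Fin n → ℂ) (s : ℂ) (hw : ∀ a, w a = x a + s * y a)
    (hx0 : ∀ a ∈ M, x a = 0) (hy : TypeJ M i j ci cj y) : TypeJ M i j ci cj w := by
  rcases hy with h | h | h
  · left
    intro a ha hai
    rw [hw, hx0 a ha, h a ha hai, mul_zero, add_zero]
  · right
    left
    intro a ha haj
    rw [hw, hx0 a ha, h a ha haj, mul_zero, add_zero]
  · right
    right
    rw [hw, hw, hx0 i hi, hx0 j hj]
    linear_combination s * h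

lemma typeJ_of_zero_right (M : Finset (Fin n)) (i j : Fin n) (hi : i ∈ M) (hj : j ∈ M)
    (ci cj : ℂ) (x y w : Fin n → ℂ) (s : ℂ) (hw : ∀ a, w a = x a + s * y a)
    (hy0 : ∀ a ∈ M, y a = 0) (hx : TypeJ M i j ci cj x) : TypeJ M i j ci cj w := by
  rcases hx with h | h | h
  · left
    intro a ha hai
    rw [hw, hy0 a ha, h a ha hai, mul_zero, add_zero]
  · right
    left
    intro a ha haj
    rw [hw, hy0 a ha, h a ha haj, mul_zero, add_zero]
  · right
    right
    rw [hw, hw, hy0 i hi, hy0 j hj]
    linear_combination h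

lemma typeJ_step (M : Finset (Fin n)) (i j : Fin n) (hi : i ∈ M) (hj : j ∈ M)
    (ci cj : ℂ) (x y w : Fin n → ℂ) (s : ℂ) (hw : ∀ a, w a = x a + s * y a)
    (hx : TypeJ M i j ci cj x) (hy : TypeJ M i j ci cj y) :
    TypeJ M i j ci cj w ∨ Dgen M i x y ∨ Dgen M j x y := by
  rcases hx with hx1 | hx2 | hx3
  · rcases dgen_of_left M i hi x y hx1 with h0 | hy1 | hD
    · left
      refine typeJ_of_zero_left M i j hi hj ci cj x y w s hw ?_ hy
      intro a ha
      by_cases hai : a = i
      · rw [hai]
        exact h0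
      · exact hx1 a ha hai
    · left
      left
      intro a ha hai
      rw [hw, hx1 a ha hai, hy1 a ha hai, mul_zero, add_zero]
    · exact Or.inr (Or.inl hD)
  · rcases dgen_of_left M j hj x y hx2 with h0 | hy2 | hD
    · left
      refine typeJ_of_zero_left M i j hi hj ci cj x y w s hw ?_ hy
      intro a ha
      by_cases haj : a = j
      · rw [haj]
        exact h0
      · exact hx2 a ha haj
    · left
      right
      left
      intro a ha haj
      rw [hw, hx2 a ha haj, hy2 a ha haj, mul_zero, add_zero]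
    · exact Or.inr (Or.inr hD)
  · rcases hy with hy1 | hy2 | hy3
    · rcases dgen_of_right M i hi x y hy1 with h0 | hx1 | hD
      · left
        refine typeJ_of_zero_right M i j hi hj ci cj x y w s hw ?_ (Or.inr (Or.inr hx3))
        intro a ha
        by_cases hai : a = i
        · rw [hai]
          exact h0
        · exact hy1 a ha hai
      · left
        left
        intro a ha hai
        rw [hw, hx1 a ha hai, hy1 a ha hai, mul_zero, add_zero]
      · exact Or.inr (Or.inl hD)
    · rcases dgen_of_right M j hj x y hy2 with h0 | hx2 | hD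
      · left
        refine typeJ_of_zero_right M i j hi hj ci cj x y w s hw ?_ (Or.inr (Or.inr hx3))
        intro a ha
        by_cases haj : a = j
        · rw [haj]
          exact h0
        · exact hy2 a ha haj
      · left
        right
        left
        intro a ha haj
        rw [hw, hx2 a ha haj, hy2 a ha haj, mul_zero, add_zero]
      · exact Or.inr (Or.inr hD)
    · left
      right
      right
      rw [hw, hw]
      linear_combination hx3 + s * hy3

lemma typeJ_smul (M : Finset (Fin n)) (i j : Fin n) (ci cj : ℂ) (c : ℂ) (x : Fin n → ℂ)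
    (hx : TypeJ M i j ci cj x) : TypeJ M i j ci cj (c • x) := by
  rcases hx with h | h | h
  · left
    intro a ha hai
    show c • x a = 0
    rw [h a ha hai, smul_zero]
  · right
    left
    intro a ha haj
    show c • x a = 0
    rw [h a ha haj, smul_zero]
  · right
    right
    show c • x i * cj = c • x j * ci
    rw [smul_eq_mul, smul_eq_mul]
    linear_combination c * h

lemma typeJ_zero (M : Finset (Fin n)) (i j : Fin n) (ci cj : ℂ) :
    TypeJ M i j ci cj (0 : Fin n → ℂ) :=
  Or.inl (fun _ _ _ => rfl)

/-- second phase: once all values have one of the three shapes, a further gate that is generic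
on `M` but not on `M` without `i` (or without `j`) is needed to reach `f` and `g` -/
lemma phaseB (M : Finset (Fin n)) (i j : Fin n) (hi : i ∈ M) (hj : j ∈ M) (hij : i ≠ j)
    (ci cj : ℂ) (hci : ci ≠ 0) (hcj : cj ≠ 0) (f g : Fin n → ℂ)
    (hfM : ∀ a ∈ M, f a ≠ 0) (hgM : ∀ a ∈ M, g a ≠ 0)
    (hfg : ∀ a ∈ M, ∀ b ∈ M, a ≠ b → f a * g b ≠ f b * g a) :
    ∀ (gs : List Gate) (vals : List (Fin n → ℂ)), (∀ v ∈ vals, TypeJ M i j ci cj v) →
      f ∈ grun vals gs → g ∈ grun vals gs →
      1 ≤ cnt (Dgen M i) vals gs ∨ 1 ≤ cnt (Dgen M j) vals gs := by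
  classical
  intro gs
  induction gs with
  | nil =>
    intro vals hT hf hg
    exfalso
    have hfT := hT f hf
    have hgT := hT g hg
    have hf3 : f i * cj = f j * ci := by
      rcases hfT with h | h | h
      · exact absurd (h j hj (Ne.symm hij)) (hfM j hj)
      · exact absurd (h i hi hij) (hfM i hi)
      · exact h
    have hg3 : g i * cj = g j * ci := by
      rcases hgT with h | h | h
      · exact absurd (h j hj (Ne.symm hij)) (hgM j hj)
      · exact absurd (h i hi hij) (hgM i hi)
      · exact h
    have hprod : (f i * g j - f j * g i) * (ci * cj) = 0 := by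
      linear_combination (g j * ci) * hf3 - (f j * ci) * hg3
    rcases mul_eq_zero.mp hprod with h | h
    · exact hfg i hi j hj hij (sub_eq_zero.mp h)
    · exact mul_ne_zero hci hcj h
  | cons g0 gs ih =>
    intro vals hT hf hg
    show 1 ≤ gw (Dgen M i) vals g0 + cnt (Dgen M i) (vals ++ [gev vals g0]) gs
      ∨ 1 ≤ gw (Dgen M j) vals g0 + cnt (Dgen M j) (vals ++ [gev vals g0]) gs
    have hT0 : ∀ x : Fin n → ℂ, (x ∈ vals ∨ x = 0) → TypeJ M i j ci cj x := by
      intro x hx
      rcases hx with hx | hx
      · exact hT x hx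
      · rw [hx]
        exact typeJ_zero M i j ci cj
    have hnext : TypeJ M i j ci cj (gev vals g0) →
        (1 ≤ gw (Dgen M i) vals g0 + cnt (Dgen M i) (vals ++ [gev vals g0]) gs
          ∨ 1 ≤ gw (Dgen M j) vals g0 + cnt (Dgen M j) (vals ++ [gev vals g0]) gs) := by
      intro hw
      have hT' : ∀ v ∈ vals ++ [gev vals g0], TypeJ M i j ci cj v := by
        intro v hv
        rw [List.mem_append, List.mem_singleton] at hv
        rcases hv with hv | hv
        · exact hT v hv
        · rw [hv]
          exact hw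
      rcases ih (vals ++ [gev vals g0]) hT' hf hg with h | h
      · left
        omega
      · right
        omega
    rcases gate_view vals g0 with ⟨c, x, hx, hev, -, -, -⟩ | ⟨x, y, s, -, hx, hy, hev, hgw, -, -⟩
    · apply hnext
      rw [hev]
      exact typeJ_smul M i j ci cj c x (hT0 x hx)
    · rcases typeJ_step M i j hi hj ci cj x y (gev vals g0) s hev (hT0 x hx) (hT0 y hy)
        with hw | hD | hD
      · exact hnext hw
      · left
        rw [hgw, if_pos hD]
        omega
      · right
        rw [hgw, if_pos hD]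
        omega

lemma pure_step (M : Finset (Fin n)) (x y w : Fin n → ℂ) (s : ℂ)
    (hw : ∀ a, w a = x a + s * y a) (hx : PureOn M x) (hy : PureOn M y) :
    PureOn M w ∨ ∃ i ∈ M, ∃ j ∈ M, i ≠ j ∧ x i ≠ 0 ∧ y j ≠ 0 := by
  by_cases h : ∃ i ∈ M, ∃ j ∈ M, i ≠ j ∧ x i ≠ 0 ∧ y j ≠ 0
  · exact Or.inr h
  · left
    intro a ha b hb hwa hwb
    by_contra hab
    have h1 : x a ≠ 0 ∨ y a ≠ 0 := by
      by_contra hc
      rw [not_or, not_not, not_not] at hc
      apply hwa
      rw [hw, hc.1, hc.2, mul_zero, add_zero]
    have h2 : x b ≠ 0 ∨ y b ≠ 0 := by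
      by_contra hc
      rw [not_or, not_not, not_not] at hc
      apply hwb
      rw [hw, hc.1, hc.2, mul_zero, add_zero]
    rcases h1 with h1 | h1
    · rcases h2 with h2 | h2
      · exact hab (hx a ha b hb h1 h2)
      · exact h ⟨a, ha, b, hb, hab, h1, h2⟩
    · rcases h2 with h2 | h2
      · exact h ⟨b, hb, a, ha, Ne.symm hab, h2, h1⟩
      · exact hab (hy a ha b hb h1 h2)

lemma pureOn_zero (M : Finset (Fin n)) : PureOn M (0 : Fin n → ℂ) :=
  fun _ _ _ _ h _ => absurd rfl h

/-- first phase: as long as all values have at most one nonzero coordinate in `M`; the first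
gate that is generic on `M` opens the second phase -/
lemma phaseA (M : Finset (Fin n)) (hM : 2 ≤ M.card) (f g : Fin n → ℂ)
    (hfM : ∀ a ∈ M, f a ≠ 0) (hgM : ∀ a ∈ M, g a ≠ 0)
    (hfg : ∀ a ∈ M, ∀ b ∈ M, a ≠ b → f a * g b ≠ f b * g a) :
    ∀ (gs : List Gate) (vals : List (Fin n → ℂ)), (∀ v ∈ vals, PureOn M v) →
      f ∈ grun vals gs → g ∈ grun vals gs → ∃ i ∈ M, 2 ≤ cnt (Dgen M i) vals gs := by
  classical
  intro gs
  induction gs with
  | nil =>
    intro vals hP hf hg
    exfalso
    obtain ⟨a, ha, b, hb, hab⟩ := Finset.one_lt_card.mp (by omega : 1 < M.card)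
    exact hab (hP f hf a ha b hb (hfM a ha) (hfM b hb))
  | cons g0 gs ih =>
    intro vals hP hf hg
    have hP0 : ∀ x : Fin n → ℂ, (x ∈ vals ∨ x = 0) → PureOn M x := by
      intro x hx
      rcases hx with hx | hx
      · exact hP x hx
      · rw [hx]
        exact pureOn_zero M
    have hnext : PureOn M (gev vals g0) →
        ∃ i ∈ M, 2 ≤ gw (Dgen M i) vals g0 + cnt (Dgen M i) (vals ++ [gev vals g0]) gs := by
      intro hw
      have hP' : ∀ v ∈ vals ++ [gev vals g0], PureOn M v := by
        intro v hv
        rw [List.mem_append, List.mem_singleton] at hv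
        rcases hv with hv | hv
        · exact hP v hv
        · rw [hv]
          exact hw
      obtain ⟨i, hi, h2⟩ := ih (vals ++ [gev vals g0]) hP' hf hg
      exact ⟨i, hi, by omega⟩
    show ∃ i ∈ M, 2 ≤ gw (Dgen M i) vals g0 + cnt (Dgen M i) (vals ++ [gev vals g0]) gs
    rcases gate_view vals g0 with ⟨c, x, hx, hev, -, -, -⟩ | ⟨x, y, s, hs, hx, hy, hev, hgw, -, -⟩
    · apply hnext
      rw [hev]
      intro a ha b hb h1 h2
      apply hP0 x hx a ha b hb
      · intro h0
        apply h1
        show c • x a = 0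
        rw [h0, smul_zero]
      · intro h0
        apply h2
        show c • x b = 0
        rw [h0, smul_zero]
    · rcases pure_step M x y (gev vals g0) s hev (hP0 x hx) (hP0 y hy) with hw | hex
      · exact hnext hw
      · obtain ⟨i, hi, j, hj, hij, hxi, hyj⟩ := hex
        have hx1 : ∀ a ∈ M, a ≠ i → x a = 0 := by
          intro a ha hai
          by_contra h0
          exact hai (hP0 x hx a ha i hi h0 hxi)
        have hy1 : ∀ a ∈ M, a ≠ j → y a = 0 := by
          intro a ha haj
          by_contra h0
          exact haj (hP0 y hy a ha j hj h0 hyj)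
        have hgen : Gen M x y := by
          refine ⟨i, hi, j, hj, ?_⟩
          rw [hx1 j hj (Ne.symm hij), zero_mul]
          exact mul_ne_zero hxi hyj
        have hDi : Dgen M i x y := by
          refine ⟨hgen, ?_⟩
          rintro ⟨a, ha, c, hc, hne⟩
          apply hne
          rw [hx1 a (Finset.mem_of_mem_erase ha) (Finset.ne_of_mem_erase ha),
            hx1 c (Finset.mem_of_mem_erase hc) (Finset.ne_of_mem_erase hc), zero_mul, zero_mul]
        have hDj : Dgen M j x y := by
          refine ⟨hgen, ?_⟩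
          rintro ⟨a, ha, c, hc, hne⟩
          apply hne
          rw [hy1 a (Finset.mem_of_mem_erase ha) (Finset.ne_of_mem_erase ha),
            hy1 c (Finset.mem_of_mem_erase hc) (Finset.ne_of_mem_erase hc), mul_zero, mul_zero]
        have hci : gev vals g0 i ≠ 0 := by
          rw [hev, hy1 i hi hij, mul_zero, add_zero]
          exact hxi
        have hcj : gev vals g0 j ≠ 0 := by
          rw [hev, hx1 j hj (Ne.symm hij), zero_add]
          exact mul_ne_zero hs hyj
        have hT' : ∀ v ∈ vals ++ [gev vals g0],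
            TypeJ M i j (gev vals g0 i) (gev vals g0 j) v := by
          intro v hv
          rw [List.mem_append, List.mem_singleton] at hv
          rcases hv with hv | hv
          · have hvP := hP v hv
            by_cases hvi : v i = 0
            · by_cases hvj : v j = 0
              · right
                right
                rw [hvi, hvj, zero_mul, zero_mul]
              · right
                left
                intro a ha haj
                by_contra h0
                exact haj (hvP a ha j hj h0 hvj)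
            · left
              intro a ha hai
              by_contra h0
              exact hai (hvP a ha i hi h0 hvi)
          · rw [hv]
            right
            right
            exact mul_comm _ _
        rcases phaseB M i j hi hj hij (gev vals g0 i) (gev vals g0 j) hci hcj f g hfM hgM hfg
          gs (vals ++ [gev vals g0]) hT' hf hg with h | h
        · refine ⟨i, hi, ?_⟩
          rw [hgw, if_pos hDi]
          omega
        · refine ⟨j, hj, ?_⟩
          rw [hgw, if_pos hDj]
          omega

lemma pureOn_init (M : Finset (Fin n)) : ∀ v ∈ initV n, PureOn M v := by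
  intro v hv
  rcases mem_initV v hv with ⟨k, rfl⟩ | rfl
  · intro a _ b _ h1 h2
    have ha : a = k := by
      by_contra hne
      apply h1
      simp [hne]
    have hb : b = k := by
      by_contra hne
      apply h2
      simp [hne]
    rw [ha, hb]
  · exact pureOn_zero M

/-- If two of the computed values are nonzero on `M` and have all two-by-two minors with
columns in `M` nonzero, then at least `2 |M| - 2` additions and subtractions have arguments
with a nonzero minor on `M`. -/
theorem lemmaA (gates : List Gate) (f g : Fin n → ℂ) (hf : f ∈ grun (initV n) gates)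
    (hg : g ∈ grun (initV n) gates) :
    ∀ (k : ℕ) (M : Finset (Fin n)), M.card = k → (∀ a ∈ M, f a ≠ 0) → (∀ a ∈ M, g a ≠ 0) →
      (∀ a ∈ M, ∀ b ∈ M, a ≠ b → f a * g b ≠ f b * g a) →
      2 * k ≤ cnt (Gen M) (initV n) gates + 2 := by
  intro k
  induction k with
  | zero =>
    intro M _ _ _ _
    omega
  | succ k ih =>
    intro M hcard hfM hgM hfg
    by_cases hk : k = 0
    · subst hk
      omega
    · obtain ⟨i, hi, h2⟩ := phaseA M (by omega) f g hfM hgM hfg gates (initV n)
        (pureOn_init M) hf hg
      have hIH := ih (M.erase i) (by rw [Finset.card_erase_of_mem hi, hcard]; rfl)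
        (fun a ha => hfM a (Finset.mem_of_mem_erase ha))
        (fun a ha => hgM a (Finset.mem_of_mem_erase ha))
        (fun a ha b hb hab => hfg a (Finset.mem_of_mem_erase ha) b (Finset.mem_of_mem_erase hb) hab)
      have hadd := cnt_add_le (Gen (M.erase i)) (Dgen M i) (Gen M)
        (fun x y h => by
          obtain ⟨a, ha, b, hb, hne⟩ := h
          exact ⟨a, Finset.mem_of_mem_erase ha, b, Finset.mem_of_mem_erase hb, hne⟩)
        (fun x y h => h.1) (fun x y h1 h2 => h2.2 h1) gates (initV n)
      omega

end Vale.Agent.Lib.P344
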