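import Mathlib
import Vale.Agent.Lib.P344.Generic

namespace Vale.Agent.Lib.P344

open Finset

variable {n : ℕ}

/-- rows `j`, `j'` of `F` are nowhere proportional: all their two-by-two minors are nonzero -/
def Reg (F : Fin n → Fin n → ℂ) (j j' : Fin n) : Prop :=
  ∀ a b, a ≠ b → F j a * F j' b ≠ F j b * F j' a

open Classical in
/-- the rows of `F` that occur, up to a nonzero factor, among the values -/
noncomputable def rowsIn (F : Fin n → Fin n → ℂ) (vals : List (Fin n → ℂ)) : Finset (Fin n) :=
  Finset.univ.filter (fun j => ∃ v ∈ vals, ∃ μ : ℂ, μ ≠ 0 ∧ v = μ • F j)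

lemma mem_rowsIn (F : Fin n → Fin n → ℂ) (vals : List (Fin n → ℂ)) (j : Fin n) :
    j ∈ rowsIn F vals ↔ ∃ v ∈ vals, ∃ μ : ℂ, μ ≠ 0 ∧ v = μ • F j := by
  classical
  simp [rowsIn]

lemma grun_append (P Q : List Gate) : ∀ vals : List (Fin n → ℂ),
    grun vals (P ++ Q) = grun (grun vals P) Q := by
  induction P with
  | nil => intro vals; rfl
  | cons g P ih =>
    intro vals
    simp only [List.cons_append, grun]
    exact ih _

lemma rows_smul (hn : 0 < n) (F : Fin n → Fin n → ℂ) (hF0 : ∀ j i, F j i ≠ 0)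
    (vals : List (Fin n → ℂ)) (c : ℂ) (x : Fin n → ℂ) (hx : x ∈ vals ∨ x = 0) :
    rowsIn F (vals ++ [c • x]) ⊆ rowsIn F vals := by
  intro j hj
  rw [mem_rowsIn] at hj ⊢
  obtain ⟨v, hv, μ, hμ, hvj⟩ := hj
  rw [List.mem_append, List.mem_singleton] at hv
  rcases hv with hv | hv
  · exact ⟨v, hv, μ, hμ, hvj⟩
  · rw [hv] at hvj
    have hc : c ≠ 0 := by
      intro h0
      rw [h0, zero_smul] at hvj
      have := congrFun hvj ⟨0, hn⟩
      simp only [Pi.zero_apply, Pi.smul_apply, smul_eq_mul] at this
      exact mul_ne_zero hμ (hF0 j ⟨0, hn⟩) this.symm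
    have hxe : x = (c⁻¹ * μ) • F j := by
      rw [mul_smul, ← hvj, smul_smul, inv_mul_cancel₀ hc, one_smul]
    rcases hx with hx | hx
    · exact ⟨x, hx, c⁻¹ * μ, mul_ne_zero (inv_ne_zero hc) hμ, hxe⟩
    · exfalso
      rw [hx] at hxe
      have := congrFun hxe ⟨0, hn⟩
      simp only [Pi.zero_apply, Pi.smul_apply, smul_eq_mul] at this
      exact mul_ne_zero (mul_ne_zero (inv_ne_zero hc) hμ) (hF0 j ⟨0, hn⟩) this.symm

lemma rows_any (F : Fin n → Fin n → ℂ)
    (hFp : ∀ (j j' : Fin n) (μ : ℂ), μ ≠ 0 → F j = μ • F j' → j = j')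
    (vals : List (Fin n → ℂ)) (w : Fin n → ℂ) :
    (rowsIn F (vals ++ [w])).card ≤ (rowsIn F vals).card + 1 := by
  classical
  by_cases hex : ∃ j0 : Fin n, ∃ μ0 : ℂ, μ0 ≠ 0 ∧ w = μ0 • F j0
  · obtain ⟨j0, μ0, hμ0, hw0⟩ := hex
    have hsub : rowsIn F (vals ++ [w]) ⊆ insert j0 (rowsIn F vals) := by
      intro j hj
      rw [mem_rowsIn] at hj
      obtain ⟨v, hv, μ, hμ, hvj⟩ := hj
      rw [List.mem_append, List.mem_singleton] at hv
      rcases hv with hv | hv
      · exact Finset.mem_insert_of_mem ((mem_rowsIn F vals j).mpr ⟨v, hv, μ, hμ, hvj⟩)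
      · have hj : j = j0 := by
          apply hFp j j0 (μ⁻¹ * μ0) (mul_ne_zero (inv_ne_zero hμ) hμ0)
          rw [mul_smul, ← hw0, ← hv, hvj, smul_smul, inv_mul_cancel₀ hμ, one_smul]
        rw [hj]
        exact Finset.mem_insert_self _ _
    exact (Finset.card_le_card hsub).trans (Finset.card_insert_le _ _)
  · have hsub : rowsIn F (vals ++ [w]) ⊆ rowsIn F vals := by
      intro j hj
      rw [mem_rowsIn] at hj ⊢
      obtain ⟨v, hv, μ, hμ, hvj⟩ := hj
      rw [List.mem_append, List.mem_singleton] at hv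
      rcases hv with hv | hv
      · exact ⟨v, hv, μ, hμ, hvj⟩
      · exact absurd ⟨j, μ, hμ, hv ▸ hvj⟩ hex
    exact (Finset.card_le_card hsub).trans (Nat.le_succ _)

/-- Invariant along the circuit: once two nowhere proportional rows have been computed, the
number of additions and subtractions is at least `2 n - 2` plus the number of rows computed
beyond the first `α + 1`, where `α` bounds the size of a set of rows without such a pair. -/
theorem lemmaB (hn : 2 ≤ n) (F : Fin n → Fin n → ℂ) (hF0 : ∀ j i, F j i ≠ 0)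
    (hFp : ∀ (j j' : Fin n) (μ : ℂ), μ ≠ 0 → F j = μ • F j' → j = j')
    (α : ℕ) (hα : ∀ S : Finset (Fin n), (∀ j ∈ S, ∀ j' ∈ S, ¬ Reg F j j') → S.card ≤ α)
    (P : List Gate) :
    (∀ j ∈ rowsIn F (grun (initV n) P), ∀ j' ∈ rowsIn F (grun (initV n) P), ¬ Reg F j j') ∨
      2 * n + (rowsIn F (grun (initV n) P)).card ≤ cntAS P + α + 3 := by
  classical
  induction P using List.reverseRecOn with
  | nil =>
    left
    intro j hj
    exfalso
    obtain ⟨S, hS, hmem⟩ := inv2_init hn F hF0
    have hjS := hmem j ((mem_rowsIn F _ j).mp hj)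
    have hS0 : S = ∅ := Finset.card_eq_zero.mp (by omega)
    rw [hS0] at hjS
    exact absurd hjS (Finset.notMem_empty j)
  | append_singleton P g ih =>
    have hrun : grun (initV n) (P ++ [g])
        = grun (initV n) P ++ [gev (grun (initV n) P) g] := by
      rw [grun_append]
      rfl
    rcases gate_view (grun (initV n) P) g with
      ⟨c, x, hx, hev, -, hAS, -⟩ | ⟨x, y, s, -, -, -, -, -, hAS, -⟩
    · have hsub : rowsIn F (grun (initV n) (P ++ [g])) ⊆ rowsIn F (grun (initV n) P) := by
        rw [hrun, hev]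
        exact rows_smul (by omega) F hF0 _ c x hx
      rcases ih with h | h
      · left
        intro j hj j' hj'
        exact h j (hsub hj) j' (hsub hj')
      · right
        have := Finset.card_le_card hsub
        rw [cntAS_snoc, hAS]
        omega
    · have hcard : (rowsIn F (grun (initV n) (P ++ [g]))).card
          ≤ (rowsIn F (grun (initV n) P)).card + 1 := by
        rw [hrun]
        exact rows_any F hFp _ _
      by_cases hreg : ∀ j ∈ rowsIn F (grun (initV n) (P ++ [g])),
          ∀ j' ∈ rowsIn F (grun (initV n) (P ++ [g])), ¬ Reg F j j'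
      · exact Or.inl hreg
      · right
        rcases ih with h | h
        · have hR := hα _ h
          obtain ⟨j, hj, j', hj', hreg'⟩ : ∃ j ∈ rowsIn F (grun (initV n) (P ++ [g])),
              ∃ j' ∈ rowsIn F (grun (initV n) (P ++ [g])), Reg F j j' := by
            by_contra hc
            apply hreg
            intro j hj j' hj' hr
            exact hc ⟨j, hj, j', hj', hr⟩
          obtain ⟨v, hv, μ, hμ, hvj⟩ := (mem_rowsIn F _ j).mp hj
          obtain ⟨v', hv', μ', hμ', hvj'⟩ := (mem_rowsIn F _ j').mp hj'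
          have hA := lemmaA (P ++ [g]) v v' hv hv' n Finset.univ (by simp)
            (fun a _ => by
              rw [hvj]
              exact mul_ne_zero hμ (hF0 j a))
            (fun a _ => by
              rw [hvj']
              exact mul_ne_zero hμ' (hF0 j' a))
            (fun a _ b _ hab heq => by
              rw [hvj, hvj'] at heq
              simp only [Pi.smul_apply, smul_eq_mul] at heq
              have h1 : μ * μ' * (F j a * F j' b - F j b * F j' a) = 0 := by
                linear_combination heq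
              rcases mul_eq_zero.mp h1 with h2 | h2
              · exact mul_ne_zero hμ hμ' h2
              · exact hreg' a b hab (sub_eq_zero.mp h2))
          have hle := cnt_le_cntAS (Gen (Finset.univ : Finset (Fin n))) (P ++ [g]) (initV n)
          omega
        · rw [cntAS_snoc, hAS]
          omega

/-- the number of additions and subtractions of a circuit computing all rows of `F` -/
theorem as_bound (hn : 2 ≤ n) (F : Fin n → Fin n → ℂ) (hF0 : ∀ j i, F j i ≠ 0)
    (hFp : ∀ (j j' : Fin n) (μ : ℂ), μ ≠ 0 → F j = μ • F j' → j = j')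
    (α : ℕ) (hα : ∀ S : Finset (Fin n), (∀ j ∈ S, ∀ j' ∈ S, ¬ Reg F j j') → S.card ≤ α)
    (j0 j1 : Fin n) (hreg : Reg F j0 j1)
    (gates : List Gate) (hout : ∀ j, F j ∈ grun (initV n) gates) :
    3 * n ≤ cntAS gates + α + 3 := by
  have hR : rowsIn F (grun (initV n) gates) = Finset.univ := by
    apply Finset.eq_univ_of_forall
    intro j
    exact (mem_rowsIn F _ j).mpr ⟨F j, hout j, 1, one_ne_zero, (one_smul _ _).symm⟩
  rcases lemmaB hn F hF0 hFp α hα gates with h | h
  · exact absurd hreg (h j0 (by rw [hR]; exact Finset.mem_univ _) j1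
      (by rw [hR]; exact Finset.mem_univ _))
  · rw [hR, Finset.card_univ, Fintype.card_fin] at h
    omega

lemma inv3_run (gs : List Gate) : ∀ (vals : List (Fin n → ℂ)) (m : ℕ),
    Inv3 vals m → Inv3 (grun vals gs) (m + cntS gs) := by
  induction gs with
  | nil =>
    intro vals m h
    exact h
  | cons g gs ih =>
    intro vals m h
    rw [cntS_cons]
    cases g with
    | add u v =>
      have h1 := ih _ m (inv3_add vals m u v h)
      have e : m + (wS (Gate.add u v) + cntS gs) = m + cntS gs := by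
        simp only [wS]
        omega
      rw [e]
      exact h1
    | sub u v =>
      have h1 := ih _ m (inv3_sub vals m u v h)
      have e : m + (wS (Gate.sub u v) + cntS gs) = m + cntS gs := by
        simp only [wS]
        omega
      rw [e]
      exact h1
    | smul c u =>
      have h1 := ih _ (m + 1) (inv3_smul vals m c u h)
      have e : m + (wS (Gate.smul c u) + cntS gs) = m + 1 + cntS gs := by
        simp only [wS]
        omega
      rw [e]
      exact h1

/-- the number of scalar multiplications is at least the number of rows that are linearly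
independent over `ℚ` together with the coordinate vectors -/
theorem s_bound (F : Fin n → Fin n → ℂ) {κ : Type} [Fintype κ] (g : κ → Fin n)
    (hind : LinearIndependent ℚ
      (Sum.elim (fun k : Fin n => (Pi.single k 1 : Fin n → ℂ)) (fun i : κ => F (g i))))
    (gates : List Gate) (hout : ∀ j, F j ∈ grun (initV n) gates) :
    Fintype.card κ ≤ cntS gates := by
  classical
  obtain ⟨G, hG, hmem⟩ := inv3_run gates (initV n) 0 inv3_init
  have hrange : Set.range (Sum.elim (fun k : Fin n => (Pi.single k 1 : Fin n → ℂ))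
      (fun i : κ => F (g i))) ≤ Submodule.span ℚ (G : Set (Fin n → ℂ)) := by
    rintro _ ⟨x, rfl⟩
    rcases x with k | i
    · exact hmem _ (mem_grun gates _ _ (single_mem_initV k))
    · exact hmem _ (hout (g i))
  have hcard := linearIndependent_le_span_aux' _ hind (G : Set (Fin n → ℂ)) hrange
  simp only [Finset.coe_sort_coe, Fintype.card_coe, Fintype.card_sum, Fintype.card_fin] at hcard
  omega

/-- from the scalar form of correctness to the presence of all rows among the values -/
lemma hout_of_scalar (hn : 2 ≤ n) (F : Fin n → Fin n → ℂ) (hF0 : ∀ j i, F j i ≠ 0)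
    (gates : List Gate) (out : Fin n → ℕ)
    (h : ∀ (x : Fin n → ℂ) (j : Fin n),
      (run (List.ofFn x ++ [0]) gates).getD (out j) 0 = ∑ k, F j k * x k) :
    ∀ j, F j ∈ grun (initV n) gates := by
  have key : ∀ j, (grun (initV n) gates).getD (out j) 0 = F j := by
    intro j
    funext k
    have h1 := h (Pi.single k 1) j
    rw [run_getD, phi_single'] at h1
    rw [h1, ← phi_apply, phi_single']
  intro j
  rcases getD_mem_or_zero (grun (initV n) gates) (out j) with h1 | h1
  · rw [key j] at h1
    exact h1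
  · exfalso
    rw [key j] at h1
    exact hF0 j ⟨0, by omega⟩ (congrFun h1 _)

/-- rows of the Fourier matrix whose indices differ by a number coprime to `n` are nowhere
proportional -/
lemma dft_reg (n : ℕ) (hn : 2 ≤ n) (j j' : Fin n) (hlt : (j : ℕ) < (j' : ℕ))
    (hc : Nat.Coprime ((j' : ℕ) - (j : ℕ)) n) : Reg (dftRow n) j j' := by
  intro a b hab heq
  have hζ := Complex.isPrimitiveRoot_exp n (by omega)
  simp only [dftRow] at heq
  rw [← pow_add, ← pow_add] at heq
  obtain ⟨d, hd⟩ : ∃ d, (j' : ℕ) = (j : ℕ) + d := ⟨(j' : ℕ) - (j : ℕ), by omega⟩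
  have hcd : Nat.Coprime d n := by
    have : (j' : ℕ) - (j : ℕ) = d := by omega
    rw [this] at hc
    exact hc
  rw [hd] at heq
  have h1 : Complex.exp (2 * Real.pi * Complex.I / n)
        ^ (((j : ℕ) * (a : ℕ) + ((j : ℕ) + d) * (b : ℕ)) % n)
      = Complex.exp (2 * Real.pi * Complex.I / n)
        ^ (((j : ℕ) * (b : ℕ) + ((j : ℕ) + d) * (a : ℕ)) % n) := by
    rw [← pow_eq_pow_mod _ hζ.pow_eq_one, ← pow_eq_pow_mod _ hζ.pow_eq_one]
    exact heq
  have h2 := hζ.pow_inj (Nat.mod_lt _ (by omega)) (Nat.mod_lt _ (by omega)) h1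
  have h3 : ((j : ℕ) * (a : ℕ) + (j : ℕ) * (b : ℕ)) + d * (b : ℕ)
      ≡ ((j : ℕ) * (a : ℕ) + (j : ℕ) * (b : ℕ)) + d * (a : ℕ) [MOD n] := by
    unfold Nat.ModEq
    have e1 : (j : ℕ) * (a : ℕ) + (j : ℕ) * (b : ℕ) + d * (b : ℕ)
        = (j : ℕ) * (a : ℕ) + ((j : ℕ) + d) * (b : ℕ) := by ring
    have e2 : (j : ℕ) * (a : ℕ) + (j : ℕ) * (b : ℕ) + d * (a : ℕ)
        = (j : ℕ) * (b : ℕ) + ((j : ℕ) + d) * (a : ℕ) := by ring
    rw [e1, e2]
    exact h2
  have h4 := Nat.ModEq.add_left_cancel' _ h3
  have h5 := Nat.ModEq.cancel_left_of_coprime (Nat.coprime_comm.mp hcd) h4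
  unfold Nat.ModEq at h5
  rw [Nat.mod_eq_of_lt a.2, Nat.mod_eq_of_lt b.2] at h5
  exact hab (Fin.ext h5.symm)

lemma coprime_of_lt_minFac (n d : ℕ) (hd0 : 0 < d) (hd : d < n.minFac) : Nat.Coprime d n := by
  by_contra hne
  have hg0 : 0 < Nat.gcd d n := Nat.gcd_pos_of_pos_left n hd0
  have hg2 : 2 ≤ Nat.gcd d n := by
    have : Nat.gcd d n ≠ 1 := hne
    omega
  have h1 := Nat.minFac_le_of_dvd hg2 (Nat.gcd_dvd_right d n)
  have h2 := Nat.le_of_dvd hd0 (Nat.gcd_dvd_left d n)
  omega

/-- a set of rows of the Fourier matrix without a nowhere proportional pair has at most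
`n / p` elements, `p` the least prime factor of `n` -/
lemma dft_alpha (n : ℕ) (hn : 2 ≤ n) (S : Finset (Fin n))
    (hS : ∀ j ∈ S, ∀ j' ∈ S, ¬ Reg (dftRow n) j j') : S.card ≤ n / n.minFac := by
  have hp : n.minFac ∣ n := Nat.minFac_dvd n
  have hp2 : 2 ≤ n.minFac := (Nat.minFac_prime (by omega)).two_le
  have key : ∀ j ∈ S, ∀ j' ∈ S, (j : ℕ) < (j' : ℕ) → (j : ℕ) / n.minFac = (j' : ℕ) / n.minFac →
      False := by
    intro j hj j' hj' hlt hdiv
    have e1 := Nat.div_add_mod (j : ℕ) n.minFac
    have e2 := Nat.div_add_mod (j' : ℕ) n.minFac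
    have m1 := Nat.mod_lt (j : ℕ) (by omega : 0 < n.minFac)
    have m2 := Nat.mod_lt (j' : ℕ) (by omega : 0 < n.minFac)
    rw [← hdiv] at e2
    have hd : (j' : ℕ) - (j : ℕ) < n.minFac := by omega
    exact hS j hj j' hj' (dft_reg n hn j j' hlt
      (coprime_of_lt_minFac n _ (by omega) hd))
  have hcard : S.card ≤ (Finset.range (n / n.minFac)).card := by
    apply Finset.card_le_card_of_injOn (fun j : Fin n => (j : ℕ) / n.minFac)
    · intro j _
      simp only [Finset.coe_range, Set.mem_Iio]
      exact Nat.div_lt_div_of_lt_of_dvd hp j.2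
    · intro j hj j' hj' hjj'
      simp only at hjj'
      by_contra hne
      rcases lt_trichotomy (j : ℕ) (j' : ℕ) with h | h | h
      · exact key j hj j' hj' h hjj'
      · exact hne (Fin.ext h)
      · exact key j' hj' j hj h hjj'.symm
  rw [Finset.card_range] at hcard
  exact hcard

/-- Every linear circuit computing the Fourier transform of order `n ≥ 2` has at least
`4 n - n / p - τ(n) - 3` gates, `p` the least prime factor of `n`. -/
theorem four_n_bound (n : ℕ) (hn : 2 ≤ n) (gates : List Gate) (out : Fin n → ℕ)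
    (h : ∀ (x : Fin n → ℂ) (j : Fin n),
      (run (List.ofFn x ++ [0]) gates).getD (out j) 0
        = ∑ k : Fin n, Complex.exp (2 * Real.pi * Complex.I / n) ^ ((j : ℕ) * (k : ℕ)) * x k) :
    3 * n ≤ cntAS gates + n / n.minFac + 3 ∧ n ≤ cntS gates + (Nat.divisors n).card := by
  have hout := hout_of_scalar hn (dftRow n) (dft_ne_zero n) gates out h
  have h1 := as_bound hn (dftRow n) (dft_ne_zero n) (dft_not_prop n hn) (n / n.minFac)
    (dft_alpha n hn) ⟨0, by omega⟩ ⟨1, by omega⟩
    (dft_reg n hn ⟨0, by omega⟩ ⟨1, by omega⟩ (by simp) (by simp)) gates hout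
  have h2 := s_bound (dftRow n) (κ := Jtype n) (fun i => i.1) (dft_indep n (by omega)) gates hout
  have h3 := card_Jtype n (by omega)
  exact ⟨h1, by omega⟩

end Vale.Agent.Lib.P344
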